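import Vale.Agent.P050.R2.H300.Defs

/-!
# P050, dense targets, phase 3: the forest bound

`F` is a set of edges such that every vertex of `X` is connected to the set `R` of roots by
edges of `F`. Integration over the coordinates in `X \ R` of the product of `|U|` over `F` costs
one factor `κ` for each coordinate.
-/

set_option linter.all false

open MeasureTheory Finset

namespace Vale.Agent.P050.Dense

open Vale.Agent.P050

variable {V : Type*} [Fintype V] [DecidableEq V] {Ω : Type*} [MeasurableSpace Ω]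

/-- cut form of: every vertex of `X` is connected to `R` by edges of `F` -/
def Cut (F : Finset (Sym2 V)) (X R : Finset V) : Prop :=
  ∀ T : Finset V, R ⊆ T → ¬ X ⊆ T → ∃ v ∈ X, v ∉ T ∧ ∃ w ∈ T, s(v, w) ∈ F

omit [Fintype V] in
lemma Cut.mono {F F' : Finset (Sym2 V)} {X R : Finset V} (h : Cut F X R) (hF : F ⊆ F') :
    Cut F' X R := by
  intro T hT hX
  obtain ⟨v, hv, hvT, w, hw, hvw⟩ := h T hT hX
  exact ⟨v, hv, hvT, w, hw, hF hvw⟩

omit [Fintype V] in
lemma Cut.mono_root {F : Finset (Sym2 V)} {X R R' : Finset V} (h : Cut F X R) (hR : R ⊆ R') :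
    Cut F X R' := by
  intro T hT hX
  exact h T (hR.trans hT) hX

omit [Fintype V] in
/-- from connectivity in the graph of the edge set `F`, all edges inside `X` -/
lemma Cut.of_reachable {F : Finset (Sym2 V)} {X R : Finset V}
    (hF : ∀ e ∈ F, ∀ v ∈ e, v ∈ X) (h : ∀ v ∈ X, ∃ r ∈ R, (gr F).Reachable r v) :
    Cut F X R := by
  intro T hT hX
  obtain ⟨x, hx, hxT⟩ := Finset.not_subset.mp hX
  obtain ⟨r, hr, hrx⟩ := h x hx
  have key : ∀ y, (gr F).Reachable r y → y ∉ T → ∃ v ∈ X, v ∉ T ∧ ∃ w ∈ T, s(v, w) ∈ F := by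
    intro y hy
    rw [SimpleGraph.reachable_iff_reflTransGen] at hy
    induction hy with
    | refl => intro h1; exact absurd (hT hr) h1
    | tail hab hbc ih =>
      rename_i b c
      intro hc
      by_cases hb : b ∈ T
      · rw [SimpleGraph.fromEdgeSet_adj] at hbc
        have he : s(c, b) ∈ F := by
          rw [Sym2.eq_swap]
          exact hbc.1
        exact ⟨c, hF _ he c (by simp), hc, b, hb, he⟩
      · exact ih hb
  exact key x hrx hxT

omit [Fintype V] in
/-- the cut condition after removal of one edge at the roots -/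
lemma Cut.step {F : Finset (Sym2 V)} {X R : Finset V} (h : Cut F X R) {v w : V}
    (hw : w ∈ R) : Cut (F.erase s(v, w)) X (insert v R) := by
  intro T hT hX
  obtain ⟨v', hv', hvT, w', hw', hvw⟩ := h T ((Finset.subset_insert _ _).trans hT) hX
  refine ⟨v', hv', hvT, w', hw', Finset.mem_erase.mpr ⟨?_, hvw⟩⟩
  intro he
  have hv1 : v' ∈ (s(v, w) : Sym2 V) := by rw [← he]; simp
  rw [Sym2.mem_iff] at hv1
  rcases hv1 with rfl | rfl
  · exact hvT (hT (Finset.mem_insert_self _ _))
  · exact hvT (hT (Finset.mem_insert_of_mem hw))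

variable (μ : Measure Ω) [IsProbabilityMeasure μ] {U : Sym2 Ω → ℝ} {κ : ℝ}

omit [Fintype V] [DecidableEq V] [MeasurableSpace Ω] in
lemma prod_abs_nonneg (U : Sym2 Ω → ℝ) (F : Finset (Sym2 V)) (z : V → Ω) :
    0 ≤ ∏ e ∈ F, |U (e.map z)| := Finset.prod_nonneg fun _ _ => abs_nonneg _

lemma prod_abs_le_one (hU : Good U 1) (F : Finset (Sym2 V)) (z : V → Ω) :
    ∏ e ∈ F, |U (e.map z)| ≤ 1 := Finset.prod_le_one (fun _ _ => abs_nonneg _) fun _ _ => hU.bdd _

lemma bm_prod_abs (hU : Good U 1) (F : Finset (Sym2 V)) :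
    BM (fun z : V → Ω => ∏ e ∈ F, |U (e.map z)|) :=
  BM.finprod F fun e _ => (hU.bm_edge e).abs

/-- integration of one edge -/
lemma int_edge_le (hU : Good U 1) (h1 : ∀ s, ∫ t, |two U s t| ∂μ ≤ κ) {v w : V}
    (hvw : v ≠ w) {g : (V → Ω) → ℝ} (hg : BM g) (hg0 : ∀ z, 0 ≤ g z) (hgv : Ind v g) :
    ∫ z, g z * |U s(z v, z w)| ∂(piM V μ) ≤ κ * ∫ z, g z ∂(piM V μ) := by
  have hbm : BM (fun z : V → Ω => g z * |U s(z v, z w)|) := by
    have := hg.mul ((hU.bm_edge (V := V) s(v, w)).abs)
    simpa using this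
  rw [integral_update μ v hbm, ← integral_const_mul]
  have hL : ∀ x : V → Ω, ∫ y, g (Function.update x v y) *
      |U s(Function.update x v y v, Function.update x v y w)| ∂μ =
      g x * ∫ y, |two U (x w) y| ∂μ := by
    intro x
    rw [← integral_const_mul]
    congr 1
    ext y
    rw [hgv x y, Function.update_self, Function.update_of_ne hvw.symm, two_symm]
    rfl
  simp only [hL]
  have hbm2 : BM (fun x : V → Ω => g x * ∫ y, |two U (x w) y| ∂μ) := by
    have h2 : BM (fun s : Ω => ∫ y, |two U s y| ∂μ) :=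
      BM.integral_right (f := fun q : Ω × Ω => |two U q.1 q.2|) (hU.bm_two.abs) μ
    exact hg.mul (h2.comp (measurable_pi_apply w))
  refine integral_mono (hbm2.integrable _) (((BM.const κ).mul hg).integrable _) fun x => ?_
  show g x * ∫ y, |two U (x w) y| ∂μ ≤ κ * g x
  rw [mul_comm κ]
  exact mul_le_mul_of_nonneg_left (h1 _) (hg0 x)

/-- **forest bound**, integrated form, with a weight `g` which does not depend on the
coordinates in `X \ R` -/
theorem forest_int (hU : Good U 1) (hκ : 0 ≤ κ) (h1 : ∀ s, ∫ t, |two U s t| ∂μ ≤ κ)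
    {F : Finset (Sym2 V)} {X R : Finset V} (hc : Cut F X R)
    {g : (V → Ω) → ℝ} (hg : BM g) (hg0 : ∀ z, 0 ≤ g z) (hgi : ∀ v ∈ X \ R, Ind v g) :
    ∫ z, g z * ∏ e ∈ F, |U (e.map z)| ∂(piM V μ) ≤
      κ ^ (X \ R).card * ∫ z, g z ∂(piM V μ) := by
  obtain ⟨n, hn⟩ : ∃ n, (X \ R).card = n := ⟨_, rfl⟩
  rw [hn]
  induction n generalizing F R g with
  | zero =>
    rw [pow_zero, one_mul]
    refine integral_mono ((hg.mul (bm_prod_abs hU F)).integrable _) (hg.integrable _)
      fun z => ?_
    exact mul_le_of_le_one_right (hg0 z) (prod_abs_le_one hU F z)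
  | succ n ih =>
    have hX : ¬ X ⊆ R := by
      intro h
      rw [Finset.sdiff_eq_empty_iff_subset.mpr h, Finset.card_empty] at hn
      omega
    obtain ⟨v, hv, hvR, w, hw, hvw⟩ := hc R (Finset.Subset.refl _) hX
    have hne : v ≠ w := fun h => hvR (h ▸ hw)
    have hvS : v ∈ X \ R := Finset.mem_sdiff.mpr ⟨hv, hvR⟩
    have hS : X \ insert v R = (X \ R).erase v := by
      ext u
      simp only [Finset.mem_sdiff, Finset.mem_insert, Finset.mem_erase, not_or]
      tauto
    have hcard : (X \ insert v R).card = n := by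
      rw [hS, Finset.card_erase_of_mem hvS, hn]
      rfl
    have hg'bm : BM (fun z : V → Ω => g z * |U s(z v, z w)|) := by
      have := hg.mul ((hU.bm_edge (V := V) s(v, w)).abs)
      simpa using this
    have key := ih (F := F.erase s(v, w)) (R := insert v R) (hc.step hw)
      (g := fun z => g z * |U s(z v, z w)|) hg'bm
      (fun z => mul_nonneg (hg0 z) (abs_nonneg _))
      (by
        intro u hu x y
        have hu' : u ∈ X \ R := by
          rw [hS] at hu
          exact Finset.mem_of_mem_erase hu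
        have huv : v ≠ u := by
          rintro rfl
          exact (Finset.mem_sdiff.mp hu).2 (Finset.mem_insert_self _ _)
        have huw : w ≠ u := by
          rintro rfl
          exact (Finset.mem_sdiff.mp hu').2 hw
        show g (Function.update x u y) *
          |U s(Function.update x u y v, Function.update x u y w)| = g x * |U s(x v, x w)|
        rw [hgi u hu' x y, Function.update_of_ne huv, Function.update_of_ne huw])
      hcard
    have e1 : ∀ z : V → Ω, g z * ∏ e ∈ F, |U (e.map z)| =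
        g z * |U s(z v, z w)| * ∏ e ∈ F.erase s(v, w), |U (e.map z)| := by
      intro z
      rw [← Finset.mul_prod_erase F (fun e => |U (e.map z)|) hvw, Sym2.map_mk, mul_assoc]
    simp only [e1]
    refine key.trans ?_
    rw [pow_succ, mul_assoc]
    exact mul_le_mul_of_nonneg_left
      (int_edge_le μ hU h1 hne hg hg0 (hgi v hvS)) (pow_nonneg hκ n)

/-- `x` on `S`, `z` outside `S` -/
def frz (S : Finset V) (z x : V → Ω) : V → Ω := fun v => if v ∈ S then x v else z v

omit [Fintype V] in
lemma measurable_frz (S : Finset V) :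
    Measurable (fun p : (V → Ω) × (V → Ω) => frz S p.1 p.2) := by
  rw [measurable_pi_iff]
  intro i
  unfold frz
  by_cases h : i ∈ S
  · simp only [h, if_true]
    exact (measurable_pi_apply i).comp measurable_snd
  · simp only [h, if_false]
    exact (measurable_pi_apply i).comp measurable_fst

omit [Fintype V] in
lemma measurable_frz_right (S : Finset V) (z : V → Ω) :
    Measurable (fun x : V → Ω => frz S z x) :=
  (measurable_frz S).comp (measurable_const.prodMk measurable_id)

omit [Fintype V] [MeasurableSpace Ω] in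
lemma frz_update {S : Finset V} {v : V} (hv : v ∈ S) (z x : V → Ω) (y : Ω) :
    frz S z (Function.update x v y) = frz (S.erase v) (Function.update z v y) x := by
  ext u
  unfold frz
  by_cases hu : u = v
  · subst hu
    simp [hv]
  · simp [Function.update_of_ne hu, Finset.mem_erase, hu]

/-- **forest bound**, pointwise form: the coordinates outside `X \ R` are frozen -/
theorem forest_pt (hU : Good U 1) (hκ : 0 ≤ κ) (h1 : ∀ s, ∫ t, |two U s t| ∂μ ≤ κ)
    {F : Finset (Sym2 V)} {X R : Finset V} (hc : Cut F X R) (z : V → Ω) :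
    ∫ x, ∏ e ∈ F, |U (e.map (frz (X \ R) z x))| ∂(piM V μ) ≤ κ ^ (X \ R).card := by
  obtain ⟨n, hn⟩ : ∃ n, (X \ R).card = n := ⟨_, rfl⟩
  rw [hn]
  induction n generalizing F R z with
  | zero =>
    rw [pow_zero]
    have hbm : BM (fun x : V → Ω => ∏ e ∈ F, |U (e.map (frz (X \ R) z x))|) :=
      (bm_prod_abs hU F).comp (measurable_frz_right (X \ R) z)
    calc ∫ x, ∏ e ∈ F, |U (e.map (frz (X \ R) z x))| ∂(piM V μ)
        ≤ ∫ x : V → Ω, (1 : ℝ) ∂(piM V μ) :=
          integral_mono (hbm.integrable _) ((BM.const 1).integrable _)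
            fun x => prod_abs_le_one hU F _
      _ = 1 := by simp
  | succ n ih =>
    have hX : ¬ X ⊆ R := by
      intro h
      rw [Finset.sdiff_eq_empty_iff_subset.mpr h, Finset.card_empty] at hn
      omega
    obtain ⟨v, hv, hvR, w, hw, hvw⟩ := hc R (Finset.Subset.refl _) hX
    have hne : v ≠ w := fun h => hvR (h ▸ hw)
    have hvS : v ∈ X \ R := Finset.mem_sdiff.mpr ⟨hv, hvR⟩
    have hwS : w ∉ X \ R := fun h => (Finset.mem_sdiff.mp h).2 hw
    have hS : X \ insert v R = (X \ R).erase v := by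
      ext u
      simp only [Finset.mem_sdiff, Finset.mem_insert, Finset.mem_erase, not_or]
      tauto
    have hcard : (X \ insert v R).card = n := by
      rw [hS, Finset.card_erase_of_mem hvS, hn]
      rfl
    have hbm : BM (fun x : V → Ω => ∏ e ∈ F, |U (e.map (frz (X \ R) z x))|) :=
      (bm_prod_abs hU F).comp (measurable_frz_right (X \ R) z)
    rw [integral_update μ v hbm]
    set P : (V → Ω) → Ω → ℝ := fun x y =>
      ∏ e ∈ F.erase s(v, w), |U (e.map (frz (X \ insert v R) (Function.update z v y) x))|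
      with hP
    have e1 : ∀ (x : V → Ω) (y : Ω),
        ∏ e ∈ F, |U (e.map (frz (X \ R) z (Function.update x v y)))| =
        |two U (z w) y| * P x y := by
      intro x y
      rw [← Finset.mul_prod_erase F
        (fun e => |U (e.map (frz (X \ R) z (Function.update x v y)))|) hvw, Sym2.map_mk]
      have e2 : frz (X \ R) z (Function.update x v y) v = y := by
        simp [frz, hvS]
      have e3 : frz (X \ R) z (Function.update x v y) w = z w := by
        unfold frz
        rw [if_neg hwS]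
      rw [e2, e3, two_symm]
      simp only [hP, hS, frz_update hvS]
      rfl
    simp only [e1]
    have hbmP : BM (fun q : (V → Ω) × Ω => |two U (z w) q.2| * P q.1 q.2) := by
      have h2 : BM (fun q : (V → Ω) × Ω => |two U (z w) q.2|) :=
        (hU.bm_two.comp (g := fun q : (V → Ω) × Ω => (z w, q.2)) (by fun_prop)).abs
      refine h2.mul ?_
      refine (bm_prod_abs hU (F.erase s(v, w))).comp (g := fun q : (V → Ω) × Ω =>
        frz (X \ insert v R) (Function.update z v q.2) q.1) ?_
      refine (measurable_frz (X \ insert v R)).comp (Measurable.prodMk ?_ measurable_fst)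
      exact (measurable_upd v).comp (measurable_const.prodMk measurable_snd)
    rw [integral_integral_swap (hbmP.integrable ((piM V μ).prod μ))]
    have hin : ∀ y : Ω, ∫ x, |two U (z w) y| * P x y ∂(piM V μ) ≤
        κ ^ n * |two U (z w) y| := by
      intro y
      rw [integral_const_mul, mul_comm (κ ^ n)]
      exact mul_le_mul_of_nonneg_left
        (ih (F := F.erase s(v, w)) (R := insert v R) (hc.step hw) (Function.update z v y) hcard)
        (abs_nonneg _)
    have hbm3 : BM (fun y : Ω => |two U (z w) y|) :=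
      (hU.bm_two.comp (g := fun y : Ω => (z w, y)) (by fun_prop)).abs
    have hbm4 : BM (fun y : Ω => ∫ x, |two U (z w) y| * P x y ∂(piM V μ)) :=
      BM.integral_right (f := fun q : Ω × (V → Ω) => |two U (z w) q.1| * P q.2 q.1)
        (hbmP.comp measurable_swap) (piM V μ)
    calc ∫ y, ∫ x, |two U (z w) y| * P x y ∂(piM V μ) ∂μ
        ≤ ∫ y, κ ^ n * |two U (z w) y| ∂μ :=
          integral_mono (hbm4.integrable _) (((BM.const (κ ^ n)).mul hbm3).integrable _) hin
      _ = κ ^ n * ∫ y, |two U (z w) y| ∂μ := integral_const_mul _ _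
      _ ≤ κ ^ n * κ := mul_le_mul_of_nonneg_left (h1 _) (pow_nonneg hκ n)
      _ = κ ^ (n + 1) := (pow_succ _ _).symm

/-! ### literal forms -/

/-- **FOREST**, pointwise form -/
theorem forest {η : ℝ} (hU : Ker μ U κ η) {F : Finset (Sym2 V)} {X Rt : Finset V}
    (hF : ∀ e ∈ F, ∀ v ∈ e, v ∈ X) (hc : ∀ v ∈ X, ∃ r ∈ Rt, (gr F).Reachable r v)
    (z : V → Ω) :
    ∫ x, ∏ e ∈ F, |U (e.map (fun v => if v ∈ X \ Rt then x v else z v))| ∂(piM V μ) ≤
      κ ^ (X \ Rt).card :=
  forest_pt μ hU.good hU.κ0 hU.l1 (Cut.of_reachable hF hc) z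

/-- **FOREST**, integrated form -/
theorem forest_weight {η : ℝ} (hU : Ker μ U κ η) {F : Finset (Sym2 V)} {X Rt : Finset V}
    (hF : ∀ e ∈ F, ∀ v ∈ e, v ∈ X) (hc : ∀ v ∈ X, ∃ r ∈ Rt, (gr F).Reachable r v)
    {g : (V → Ω) → ℝ} (hg : BM g) (hg0 : ∀ z, 0 ≤ g z) (hgi : ∀ v ∈ X \ Rt, Ind v g) :
    ∫ z, g z * ∏ e ∈ F, |U (e.map z)| ∂(piM V μ) ≤
      κ ^ (X \ Rt).card * ∫ z, g z ∂(piM V μ) :=
  forest_int μ hU.good hU.κ0 hU.l1 (Cut.of_reachable hF hc) hg hg0 hgi

/-- all vertices integrated, one root -/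
theorem forest_all {η : ℝ} (hU : Ker μ U κ η) {F : Finset (Sym2 V)} {X : Finset V} {r : V}
    (hr : r ∈ X) (hF : ∀ e ∈ F, ∀ v ∈ e, v ∈ X) (hc : ∀ v ∈ X, (gr F).Reachable r v) :
    ∫ z, ∏ e ∈ F, |U (e.map z)| ∂(piM V μ) ≤ κ ^ (X.card - 1) := by
  have h := forest_weight μ hU (Rt := {r}) hF
    (fun v hv => ⟨r, Finset.mem_singleton_self r, hc v hv⟩) (g := fun _ => 1) (BM.const 1)
    (fun _ => zero_le_one) (fun _ _ _ _ => rfl)
  have hcard : (X \ {r}).card = X.card - 1 := by
    rw [Finset.sdiff_singleton_eq_erase, Finset.card_erase_of_mem hr]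
  simpa [hcard] using h

end Vale.Agent.P050.Dense
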