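import Vale.Agent.P050.R2.H612.PthL

/-!
# P050, dense targets: M5d, the bound of one term of the expansion with a marked vertex
-/

set_option linter.all false

open MeasureTheory Finset

namespace Vale.Agent.P050.Dense

open Vale.Agent.P050

namespace H612

variable {V : Type*} [Fintype V] [DecidableEq V] {Ω : Type*} [MeasurableSpace Ω]
variable {U : Sym2 Ω → ℝ} {N : V → Finset V} {B γ : Finset V} {D : ℕ} {o : V → ℕ}
variable (μ : Measure Ω) [IsProbabilityMeasure μ]

lemma hf_dep1 {fl : Bool} {a₀ : V} {L : List (V × V)} {b : V} (hb : b ∈ Bs L) :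
    ∃ X a Y, L = X ++ (b, a) :: Y ∧ ∀ u, ¬ Ind u (hf μ U N o fl a₀ L b) →
      (u = b ∨ (u ∈ N b ∧ u ≠ lastA a₀ Y ∧ u ≠ a)) := by
  obtain ⟨X, a, Y, h1, h2⟩ := dc_spec (U := U) (N := N) (o := o) (a₀ := a₀) hb
  refine ⟨X, a, Y, h1, ?_⟩
  intro u hu
  by_contra hcon
  rw [not_or] at hcon
  apply hu
  unfold hf
  rw [if_pos hb, h2]
  apply Rdec_ind N o hcon.1
  rintro ⟨h3, h4, h5⟩
  exact hcon.2 ⟨h3, h4, fun h6 => by rw [h6] at h5; exact lt_irrefl _ h5⟩

lemma hf_dep2 {fl : Bool} {a₀ : V} {L : List (V × V)} {b : V} (hb : b ∉ Bs L) {u : V}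
    (hu : ¬ Ind u (hf μ U N o fl a₀ L b)) : u ∈ N b := by
  by_contra hcon
  apply hu
  unfold hf
  rw [if_neg hb]
  apply Phi_ind
  intro h3
  exact hcon (Finset.mem_sdiff.mp h3).1

/-- decorations of path vertices: where they depend on the path -/
lemma hf_path (hN : Bip N B D) (hγ : γ ⊆ B) {k : ℕ} (hk : 2 ≤ k)
    (hg : GC N γ k) {fl : Bool} {a₀ : V} (ha₀ : a₀ ∉ B) {L : List (V × V)} (h : Pth N γ a₀ L)
    {b : V} (hb : b ∈ Bs L) :
    ∃ X a Y, L = X ++ (b, a) :: Y ∧ ∀ w ∈ a₀ :: fw L, ¬ Ind w (hf μ U N o fl a₀ L b) →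
      w = b ∨ (w ≠ b ∧ w ≠ lastA a₀ Y ∧ w ≠ a ∧ ∃ X' Y', L = X' ++ Y' ∧ w = lastA a₀ Y' ∧
        ((k + Y'.length ≤ Y.length + 1) ∨ (k + Y.length ≤ Y'.length))) := by
  obtain ⟨X, a, Y, h1, h2⟩ := hf_dep1 (U := U) (N := N) (o := o) (fl := fl) (a₀ := a₀) μ hb
  refine ⟨X, a, Y, h1, ?_⟩
  intro w hw hi
  by_cases hwb : w = b
  · exact Or.inl hwb
  right
  rcases h2 w hi with h3 | ⟨h3, h4, h5⟩
  · exact absurd h3 hwb
  refine ⟨hwb, h4, h5, ?_⟩
  have hbγ : b ∈ γ := h.bs_sub_q hb
  rcases mem_cons_fw hw with h6 | ⟨X', Y', h6, h7⟩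
  · exact absurd (hγ (h.bs_sub_q h6)) (hN.out b (hγ hbγ) w h3)
  refine ⟨X', Y', h6, h7, ?_⟩
  rcases h.nc_q hN hγ hk hg h1 h6 (h7 ▸ h3) with h8 | h8 | h8
  · exact absurd (h7.trans h8) h4
  · exact absurd (h7.trans h8) h5
  · exact h8

/-- two different path vertices on which the function attached to `b` depends, short paths -/
lemma hf_short (hN : Bip N B D) (hγ : γ ⊆ B) {k : ℕ} (hk : 2 ≤ k)
    (hg : GC N γ k) {fl : Bool} {a₀ : V} (ha₀ : a₀ ∉ B) {b₁ a₁ : V} {L : List (V × V)}
    (h : Pth N γ a₀ ((b₁, a₁) :: L)) (hl : L.length + 1 < k) {b u v : V} (hb : b ∈ γ)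
    (hu : u ∈ fw L ++ [b₁]) (hv : v ∈ a₀ :: fw ((b₁, a₁) :: L)) (huv : v ≠ u)
    (hiu : ¬ Ind u (hf μ U N o fl a₀ ((b₁, a₁) :: L) b)) :
    Ind v (hf μ U N o fl a₀ ((b₁, a₁) :: L) b) := by
  by_contra hiv
  have hu' : u ∈ a₀ :: fw ((b₁, a₁) :: L) := by
    rw [List.mem_append, List.mem_singleton] at hu
    simp only [fw, List.mem_cons, List.mem_append, List.not_mem_nil, or_false]
    rcases hu with hu | hu
    · exact Or.inr (Or.inl hu)
    · exact Or.inr (Or.inr (Or.inl hu))
  by_cases hbL : b ∈ Bs ((b₁, a₁) :: L)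
  · obtain ⟨X, a, Y, h1, h2⟩ := hf_path (U := U) (o := o) (fl := fl) μ hN hγ hk hg ha₀ h hbL
    have hY : Y.length + 1 ≤ L.length + 1 := by
      have := congrArg List.length h1
      simp only [List.length_append, List.length_cons] at this
      omega
    have key : ∀ w ∈ a₀ :: fw ((b₁, a₁) :: L),
        ¬ Ind w (hf μ U N o fl a₀ ((b₁, a₁) :: L) b) → w = b := by
      intro w hw hi
      rcases h2 w hw hi with h3 | ⟨-, -, -, X', Y', h4, h5, h6⟩
      · exact h3
      exfalso
      have hY' : Y'.length ≤ L.length + 1 := by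
        have := congrArg List.length h4
        simp only [List.length_append, List.length_cons] at this
        omega
      omega
    exact huv ((key v hv hiv).trans (key u hu' hiu).symm)
  · have h1 := hf_dep2 μ hbL hiu
    have h2 := hf_dep2 μ hbL hiv
    have hnB : ∀ w ∈ N b, w ∉ Bs ((b₁, a₁) :: L) := fun w hw hw' =>
      hN.out b (hγ hb) w hw (hγ (h.bs_sub_q hw'))
    have hu1 : ∃ X Y, L = X ++ Y ∧ Y ≠ [] ∧ u = lastA a₀ Y := by
      rw [List.mem_append, List.mem_singleton] at hu
      rcases hu with hu | hu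
      · rcases mem_fw hu with h3 | ⟨X, Y, h3, h4, h5⟩
        · exact absurd (mem_Bs_cons.mpr (Or.inr h3)) (hnB u h1)
        · exact ⟨X, Y, h3, h4, h5 a₀⟩
      · exact absurd (mem_Bs_cons.mpr (Or.inl hu)) (hnB u h1)
    obtain ⟨X, Y, h3, h4, h5⟩ := hu1
    rcases mem_cons_fw hv with h6 | ⟨X', Y', h6, h7⟩
    · exact hnB v h2 h6
    have h8 : (b₁, a₁) :: L = ((b₁, a₁) :: X) ++ Y := by rw [h3]; rfl
    have hYl : Y.length ≤ L.length := by rw [h3, List.length_append]; omega
    have hYp : 0 < Y.length := List.length_pos_of_ne_nil h4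
    have hY' : Y'.length ≤ L.length + 1 := by
      have := congrArg List.length h6
      simp only [List.length_append, List.length_cons] at this
      omega
    rcases h.np_q hN hγ hk hg h8 h6 hb hbL (h5 ▸ h1) (h7 ▸ h2) with h9 | h9 | h9
    · exact huv (h7.trans (h9.symm.trans h5.symm))
    · omega
    · omega

end H612

open H612

variable {V : Type*} [Fintype V] [DecidableEq V] {Ω : Type*} [MeasurableSpace Ω]
variable (μ : Measure Ω) [IsProbabilityMeasure μ] {U : Sym2 Ω → ℝ} {κ η : ℝ}

/-- M5d: bound of one term, marked vertex, path with `(k + 1) / 2` double steps -/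
theorem JJ_bound1 {N : V → Finset V} {B γ : Finset V} {D : ℕ} (hN : Bip N B D)
    (hU : Ker μ U κ η) {σ : ℝ} (hn : Num D κ η σ) (hσ : 0 < σ)
    (hγ : γ ⊆ B) {o : V → ℕ} (ho : Function.Injective o)
    {k : ℕ} (hk : 2 ≤ k) (hg : GC N γ k) {g : Ω → ℝ} (hgm : BM g)
    {a₀ : V} {L : List (V × V)} (ha₀ : a₀ ∉ B)
    (hP : Pth N γ a₀ L) (hl : L.length = (k + 1) / 2) :
    |∫ z, g (z a₀) * JJ μ U N o true γ a₀ L z ∂(piM V μ)| ≤
      2 ^ ((k + 1) / 2) * σ ^ (γ.card - (k + 1) / 2) * Real.sqrt (ck μ U k) *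
        Real.sqrt (∫ s, g s ^ 2 ∂μ) := by
  obtain ⟨x, L, rfl⟩ : ∃ x L', L = x :: L' := by
    cases L with
    | nil => simp only [List.length_nil] at hl; omega
    | cons x L => exact ⟨x, L, rfl⟩
  obtain ⟨b, a⟩ := x
  have hl' : L.length + 1 = (k + 1) / 2 := by simpa using hl
  have hlk : L.length + 1 < k := by omega
  have hnd := hP.nodup_q hN hγ ha₀ hk hg (by simpa using hlk)
  have hnd2 : (a₀ :: (fw L ++ [b]) ++ [a]).Nodup := by
    have e : a₀ :: (fw L ++ [b]) ++ [a] = a₀ :: fw ((b, a) :: L) := by simp [fw]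
    rw [e]; exact hnd
  have hbγ : b ∈ γ := hP.2.1
  -- the numerical bound
  have hprod : ∏ j ∈ Finset.insertNone γ,
      (Option.elim j 1 (bt σ ((b, a) :: L)) : ℝ) =
      2 ^ ((k + 1) / 2) * σ ^ (γ.card - (k + 1) / 2) := by
    rw [Finset.prod_insertNone]
    simp only [Option.elim, one_mul]
    rw [bt_prod hP, hl]
  have hβ : ∀ j ∈ Finset.insertNone γ, 0 < (Option.elim j 1 (bt σ ((b, a) :: L)) : ℝ) := by
    intro j _
    cases j with
    | none => exact one_pos
    | some j => exact bt_pos hσ _ j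
  rcases Nat.even_or_odd' k with ⟨s, hs | hs⟩
  · -- `k = 2 s`
    have hlen : (fw L ++ [b]).length + 1 = k := by
      rw [List.length_append, fw_length]
      simp only [List.length_cons, List.length_nil]
      omega
    have key := path_bound1 μ hU.good hgm (Finset.insertNone γ)
      (fun j => Option.elim j (fun _ => (1:ℝ)) (hf μ U N o true a₀ ((b, a) :: L)))
      (fun j => Option.elim j 1 (bt σ ((b, a) :: L)))
      (by
        intro j _
        cases j with
        | none => exact BM.const 1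
        | some j => exact bm_hf μ hU.good j)
      hβ
      (by
        intro j hj z
        cases j with
        | none => simp
        | some j => exact abs_hf_le μ hN hU hn hγ (Finset.some_mem_insertNone.mp hj) z)
      (a := a₀) (b := a) (p := fw L ++ [b]) hlen hnd2
      (by
        intro j hj u hu hiu v hv huv
        cases j with
        | none => intro x y; rfl
        | some j =>
          refine hf_short μ hN hγ hk hg ha₀ hP hlk (Finset.some_mem_insertNone.mp hj) hu ?_ huv hiu
          simpa [fw] using hv)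
    rw [hprod] at key
    refine le_trans (le_of_eq ?_) key
    congr 1
    refine integral_congr_ae (Filter.Eventually.of_forall fun z => ?_)
    simp only
    rw [JJ_eq μ hP z, Finset.prod_insertNone, pathProd_fw']
    simp only [Option.elim, one_mul]
    ring
  · -- `k = 2 s + 1`
    have hlen : (fw L).length + 1 = k := by
      rw [fw_length]
      omega
    have hnd3 : (a₀ :: fw L ++ [b]).Nodup := by
      have e : a₀ :: (fw L ++ [b]) ++ [a] = (a₀ :: fw L ++ [b]) ++ [a] := by simp
      rw [e] at hnd2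
      exact (List.nodup_append.mp hnd2).1
    have hab : a ∉ a₀ :: fw L ++ [b] := by
      have e : a₀ :: (fw L ++ [b]) ++ [a] = (a₀ :: fw L ++ [b]) ++ [a] := by simp
      rw [e] at hnd2
      intro hm
      exact (List.nodup_append.mp hnd2).2.2 a hm a (by simp) rfl
    have hbf : b ∉ fw L := by
      intro hm
      have h1 := (List.nodup_append.mp hnd3).2.2 b (List.mem_cons_of_mem _ hm) b (by simp)
      exact h1 rfl
    have key := path_bound1 μ hU.good hgm (Finset.insertNone γ)
      (fun j => Option.elim j (fun z : V → Ω => U s(z b, z a)) (hf μ U N o true a₀ ((b, a) :: L)))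
      (fun j => Option.elim j 1 (bt σ ((b, a) :: L)))
      (by
        intro j _
        cases j with
        | none => exact bm_U hU.good b a
        | some j => exact bm_hf μ hU.good j)
      hβ
      (by
        intro j hj z
        cases j with
        | none => exact hU.good.bdd _
        | some j => exact abs_hf_le μ hN hU hn hγ (Finset.some_mem_insertNone.mp hj) z)
      (a := a₀) (b := b) (p := fw L) hlen hnd3
      (by
        intro j hj u hu hiu v hv huv
        cases j with
        | none =>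
          exfalso
          apply hiu
          intro x y
          have h1 : b ≠ u := fun hh => hbf (hh ▸ hu)
          have h2 : a ≠ u := fun hh => hab (by
            rw [hh, List.mem_append]
            exact Or.inl (List.mem_cons_of_mem _ hu))
          simp only [Option.elim, Function.update_of_ne h1, Function.update_of_ne h2]
        | some j =>
          refine hf_short μ hN hγ hk hg ha₀ hP hlk (Finset.some_mem_insertNone.mp hj)
            (List.mem_append_left _ hu) ?_ huv hiu
          simp only [fw, List.cons_append, List.mem_cons, List.mem_append, List.not_mem_nil,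
            or_false] at hv ⊢
          rcases hv with hv | hv | hv
          · exact Or.inl hv
          · exact Or.inr (Or.inl hv)
          · exact Or.inr (Or.inr (Or.inl hv)))
    rw [hprod] at key
    refine le_trans (le_of_eq ?_) key
    congr 1
    refine integral_congr_ae (Filter.Eventually.of_forall fun z => ?_)
    simp only
    rw [JJ_eq μ hP z, Finset.prod_insertNone, pathProd_fw]
    simp only [Option.elim, edg]
    ring

end Vale.Agent.P050.Dense
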