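import Vale.Agent.P050.Bdl.B1

/-!
# P050, dense targets: the decorated path of `2 k` edges

A path of `2 k` edges carrying the kernel `U`, decorated by bounded functions which depend on one
inner vertex (and on variables outside their own half of the path), is bounded by the density of
the cycle of length `2 k`. The two end points of the path may coincide.
-/

set_option linter.all false

open MeasureTheory Finset

namespace Vale.Agent.P050.R2.H612

variable {V : Type*} [Fintype V] [DecidableEq V] {Ω : Type*} [MeasurableSpace Ω]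
variable {U : Sym2 Ω → ℝ} {ε : ℝ} (μ : Measure Ω) [IsProbabilityMeasure μ]

/-- weighted arithmetic-geometric mean -/
lemma abs_mul_le_scaled {s t x y : ℝ} (hs : 0 < s) (ht : 0 < t) :
    |x * y| ≤ 1 / 2 * (t / s * x ^ 2 + s / t * y ^ 2) := by
  have hr : 0 < t / s := div_pos ht hs
  have hr' : s / t = (t / s)⁻¹ := by rw [inv_div]
  rw [hr', abs_mul]
  set r := t / s with hrdef
  have h2 : 0 ≤ r * (|x| - r⁻¹ * |y|) ^ 2 := by positivity
  have h3 : r * (|x| - r⁻¹ * |y|) ^ 2 =
      r * |x| ^ 2 + r⁻¹ * |y| ^ 2 - 2 * (|x| * |y|) := by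
    field_simp
    ring
  rw [h3, sq_abs, sq_abs] at h2
  linarith only [h2]

/-- bilinear form of the Cauchy-Schwarz inequality used below -/
lemma integral_mul_mul_le {X : Type*} [MeasurableSpace X] (ν : Measure X) [IsProbabilityMeasure ν]
    {f g R : X → ℝ} (hf : BM f) (hg : BM g) (hR : BM R) {C s t c : ℝ} (hC : ∀ x, |R x| ≤ C)
    (hC0 : 0 ≤ C)
    (hs : 0 < s) (ht : 0 < t) (hfs : ∫ x, f x ^ 2 ∂ν ≤ s ^ 2 * c) (hgt : ∫ x, g x ^ 2 ∂ν ≤ t ^ 2 * c) :
    |∫ x, f x * (g x * R x) ∂ν| ≤ C * (s * t) * c := by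
  have hpt : ∀ x, |f x * (g x * R x)| ≤ C * (1 / 2 * (t / s * f x ^ 2 + s / t * g x ^ 2)) := by
    intro x
    have h1 := abs_mul_le_scaled (x := f x) (y := g x) hs ht
    calc |f x * (g x * R x)| = |R x| * |f x * g x| := by
          rw [← abs_mul]; congr 1; ring
      _ ≤ _ := mul_le_mul (hC x) h1 (abs_nonneg _) hC0
  have hbmR : BM (fun x => C * (1 / 2 * (t / s * f x ^ 2 + s / t * g x ^ 2))) :=
    (BM.const _).mul ((BM.const _).mul
      (((BM.const _).mul (hf.pow 2)).add ((BM.const _).mul (hg.pow 2))))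
  calc |∫ x, f x * (g x * R x) ∂ν|
      ≤ ∫ x, |f x * (g x * R x)| ∂ν := abs_integral_le_integral_abs
    _ ≤ ∫ x, C * (1 / 2 * (t / s * f x ^ 2 + s / t * g x ^ 2)) ∂ν :=
        integral_mono (((hf.mul (hg.mul hR)).abs).integrable _) (hbmR.integrable _) hpt
    _ = C * (1 / 2 * (t / s * ∫ x, f x ^ 2 ∂ν + s / t * ∫ x, g x ^ 2 ∂ν)) := by
        rw [integral_const_mul, integral_const_mul, integral_add, integral_const_mul,
          integral_const_mul]
        · exact ((BM.const _).mul (hf.pow 2)).integrable _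
        · exact ((BM.const _).mul (hg.pow 2)).integrable _
    _ ≤ C * (1 / 2 * (t / s * (s ^ 2 * c) + s / t * (t ^ 2 * c))) := by
        have h1 : 0 ≤ t / s := (div_pos ht hs).le
        have h2 : 0 ≤ s / t := (div_pos hs ht).le
        gcongr
    _ = C * (s * t) * c := by
        field_simp
        ring

/-- the path of `2 k` edges -/
theorem split_path (hU : Good U ε) {D : V → (V → Ω) → Ω → ℝ}
    (hD : ∀ v, BM (fun q : (V → Ω) × Ω => D v q.1 q.2)) {k : ℕ} {p q : List V} {a m b : V}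
    (hp : p.length + 1 = k) (hq : q.length + 1 = k)
    (ham : a ≠ m) (hmb : m ≠ b)
    (hnd1 : (a :: p ++ [m]).Nodup) (hnd2 : (m :: q ++ [b]).Nodup)
    (hpq : ∀ v ∈ p, v ∉ q) (hbp : b ∉ p) (haq : a ∉ q)
    (hin : ∀ v ∈ p ++ q, ∀ u ∈ p ++ q, Ind u (D v))
    (ha : ∀ v ∈ p, Ind a (D v)) (hm1 : ∀ v ∈ p, Ind m (D v))
    (hm2 : ∀ v ∈ q, Ind m (D v)) (hb : ∀ v ∈ q, Ind b (D v))
    {R : (V → Ω) → ℝ} (hR : BM R) (hRi : ∀ v ∈ p ++ q, Ind v R)
    {β : V → ℝ} (hβ : ∀ v ∈ p ++ q, 0 < β v) (hDb : ∀ v ∈ p ++ q, ∀ x y, |D v x y| ≤ β v)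
    {C : ℝ} (hC : ∀ x, |R x| ≤ C) (hC0 : 0 ≤ C) :
    |∫ x, pathProd U D a p m x * (pathProd U D m q b x * R x) ∂(piM V μ)| ≤
      C * ((p.map β).prod * (q.map β).prod) * ck μ U k := by
  have hmp : m ∉ p := by
    intro h
    have : (p ++ [m]).Nodup := (List.nodup_cons.mp hnd1).2
    rw [List.nodup_append] at this
    exact this.2.2 m h m (by simp) rfl
  have hmq : m ∉ q := by
    intro h
    exact (List.nodup_cons.mp hnd2).1 (by simp [h])
  have hap : a ∉ p := by
    intro h
    exact (List.nodup_cons.mp hnd1).1 (by simp [h])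
  have hbq : b ∉ q := by
    intro h
    have : (q ++ [b]).Nodup := (List.nodup_cons.mp hnd2).2
    rw [List.nodup_append] at this
    exact this.2.2 b h b (by simp) rfl
  set K1 : (V → Ω) → ℝ := fun x => kern μ (two U) (p.map (fun v => D v x)) (x a) (x m) with hK1
  set K2 : (V → Ω) → ℝ := fun x => kern μ (two U) (q.map (fun v => D v x)) (x m) (x b) with hK2
  have hK1bm : BM K1 := (bm_kern μ hU hD p).comp
    (g := fun x : V → Ω => (x, (x a, x m))) (by fun_prop)
  have hK2bm : BM K2 := (bm_kern μ hU hD q).comp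
    (g := fun x : V → Ω => (x, (x m, x b))) (by fun_prop)
  have hinp : ∀ v ∈ p, v ∈ p ++ q := fun v hv => List.mem_append_left _ hv
  have hinq : ∀ v ∈ q, v ∈ p ++ q := fun v hv => List.mem_append_right _ hv
  have hw : ∫ x, pathProd U D a p m x * (pathProd U D m q b x * R x) ∂(piM V μ) =
      ∫ x, K2 x * (K1 x * R x) ∂(piM V μ) := by
    rw [path_elim μ hU hD p a m (fun x => pathProd U D m q b x * R x)
      ((bm_pathProd hU hD q m b).mul hR) hnd1]
    · have : ∀ x, kern μ (two U) (p.map (fun v => D v x)) (x a) (x m) *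
          (pathProd U D m q b x * R x) =
          pathProd U D m q b x * (K1 x * R x) := by
        intro x; simp only [hK1]; ring
      simp only [this]
      rw [path_elim μ hU hD q m b (fun x => K1 x * R x) (hK1bm.mul hR) hnd2]
      · intro u hu x y
        have hua : a ≠ u := by
          intro hh; subst hh; exact haq hu
        have hum : m ≠ u := by
          intro hh; subst hh; exact hmq hu
        have e1 : p.map (fun v => D v (Function.update x u y)) = p.map (fun v => D v x) := by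
          apply List.map_congr_left
          intro v hv
          exact hin v (hinp v hv) u (hinq u hu) x y
        have e2 : R (Function.update x u y) = R x := hRi u (hinq u hu) x y
        simp only [hK1, e1, e2, Function.update_of_ne hua, Function.update_of_ne hum]
      · intro v hv u hu
        exact hin v (hinq v hv) u (hinq u hu)
    · intro u hu x y
      have e1 : pathProd U D m q b (Function.update x u y) = pathProd U D m q b x := by
        apply pathProd_ind q m b (fun v hv => hin v (hinq v hv) u (hinp u hu))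
        intro hmem
        simp only [List.cons_append, List.mem_cons, List.mem_append, List.mem_singleton,
          List.not_mem_nil, or_false] at hmem
        rcases hmem with hh | hh | hh
        · subst hh; exact hmp hu
        · exact hpq u hu hh
        · subst hh; exact hbp hu
      have e2 : R (Function.update x u y) = R x := hRi u (hinp u hu) x y
      simp only [e1, e2]
    · intro v hv u hu
      exact hin v (hinp v hv) u (hinp u hu)
  have hpos1 : 0 < (p.map β).prod := by
    apply List.prod_pos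
    intro r hr
    obtain ⟨v, hv, rfl⟩ := List.mem_map.mp hr
    exact hβ v (hinp v hv)
  have hpos2 : 0 < (q.map β).prod := by
    apply List.prod_pos
    intro r hr
    obtain ⟨v, hv, rfl⟩ := List.mem_map.mp hr
    exact hβ v (hinq v hv)
  have hb1 : ∫ x, K1 x ^ 2 ∂(piM V μ) ≤ ((p.map β).prod) ^ 2 * ck μ U k := by
    have := int_kern_sq_le μ hU hD p ham ha hm1 β (fun v hv => hβ v (hinp v hv))
      (fun v hv x y => hDb v (hinp v hv) x y)
    rw [hp] at this
    exact this
  have hb2 : ∫ x, K2 x ^ 2 ∂(piM V μ) ≤ ((q.map β).prod) ^ 2 * ck μ U k := by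
    have := int_kern_sq_le μ hU hD q hmb hm2 hb β (fun v hv => hβ v (hinq v hv))
      (fun v hv x y => hDb v (hinq v hv) x y)
    rw [hq] at this
    exact this
  rw [hw]
  have := integral_mul_mul_le (piM V μ) hK2bm hK1bm hR hC hC0 hpos2 hpos1 hb2 hb1
  calc |∫ x, K2 x * (K1 x * R x) ∂(piM V μ)| ≤ C * ((q.map β).prod * (p.map β).prod) * ck μ U k :=
        this
    _ = _ := by ring

/-- the path of `k` edges starting at a vertex which carries a function `g` -/
theorem half_path (hU : Good U ε) {D : V → (V → Ω) → Ω → ℝ}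
    (hD : ∀ v, BM (fun q : (V → Ω) × Ω => D v q.1 q.2)) {k : ℕ} {p : List V} {a b : V}
    (hp : p.length + 1 = k) (hab : a ≠ b) (hnd : (a :: p ++ [b]).Nodup)
    (hin : ∀ v ∈ p, ∀ u ∈ p, Ind u (D v))
    (ha : ∀ v ∈ p, Ind a (D v)) (hb : ∀ v ∈ p, Ind b (D v))
    {g : Ω → ℝ} (hg : BM g)
    {R : (V → Ω) → ℝ} (hR : BM R) (hRi : ∀ v ∈ p, Ind v R)
    {β : V → ℝ} (hβ : ∀ v ∈ p, 0 < β v) (hDb : ∀ v ∈ p, ∀ x y, |D v x y| ≤ β v)
    {C : ℝ} (hC : ∀ x, |R x| ≤ C) (hC0 : 0 ≤ C) :
    |∫ x, pathProd U D a p b x * (g (x a) * R x) ∂(piM V μ)| ≤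
      C * (p.map β).prod * (Real.sqrt (ck μ U k) * Real.sqrt (∫ s, g s ^ 2 ∂μ)) := by
  have hap : a ∉ p := by
    intro h
    exact (List.nodup_cons.mp hnd).1 (by simp [h])
  set K1 : (V → Ω) → ℝ := fun x => kern μ (two U) (p.map (fun v => D v x)) (x a) (x b) with hK1
  have hK1bm : BM K1 := (bm_kern μ hU hD p).comp
    (g := fun x : V → Ω => (x, (x a, x b))) (by fun_prop)
  have hga : BM (fun x : V → Ω => g (x a)) := hg.comp (measurable_pi_apply a)
  have hw : ∫ x, pathProd U D a p b x * (g (x a) * R x) ∂(piM V μ) =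
      ∫ x, K1 x * (g (x a) * R x) ∂(piM V μ) := by
    rw [path_elim μ hU hD p a b (fun x => g (x a) * R x) (hga.mul hR) hnd]
    · intro u hu x y
      have hua : a ≠ u := by
        intro hh; subst hh; exact hap hu
      have e2 : R (Function.update x u y) = R x := hRi u hu x y
      simp only [e2, Function.update_of_ne hua]
    · exact hin
  have hpos1 : 0 < (p.map β).prod := by
    apply List.prod_pos
    intro r hr
    obtain ⟨v, hv, rfl⟩ := List.mem_map.mp hr
    exact hβ v hv
  have hb1 : ∫ x, K1 x ^ 2 ∂(piM V μ) ≤ ((p.map β).prod) ^ 2 * ck μ U k := by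
    have := int_kern_sq_le μ hU hD p hab ha hb β hβ hDb
    rw [hp] at this
    exact this
  have hb2 : ∫ x : V → Ω, g (x a) ^ 2 ∂(piM V μ) = ∫ s, g s ^ 2 ∂μ :=
    integral_eval μ a (hg.pow 2)
  rw [hw]
  -- Cauchy-Schwarz with arbitrary weights
  have hck := ck_nonneg μ (U := U) k
  have hg2 : 0 ≤ ∫ s, g s ^ 2 ∂μ := integral_nonneg fun _ => sq_nonneg _
  have key : ∀ r : ℝ, 0 < r → |∫ x, K1 x * (g (x a) * R x) ∂(piM V μ)| ≤
      C * (1 / 2 * (r⁻¹ * (((p.map β).prod) ^ 2 * ck μ U k) + r * ∫ s, g s ^ 2 ∂μ)) := by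
    intro r hr
    have hpt : ∀ x, |K1 x * (g (x a) * R x)| ≤
        C * (1 / 2 * (r⁻¹ * K1 x ^ 2 + r * g (x a) ^ 2)) := by
      intro x
      have h1 := abs_mul_le_scaled (x := K1 x) (y := g (x a)) (s := r) (t := 1) hr one_pos
      rw [show (1:ℝ) / r = r⁻¹ from one_div r, div_one] at h1
      calc |K1 x * (g (x a) * R x)| = |R x| * |K1 x * g (x a)| := by
            rw [← abs_mul]; congr 1; ring
        _ ≤ _ := mul_le_mul (hC x) h1 (abs_nonneg _) hC0
    have hbmR : BM (fun x : V → Ω => C * (1 / 2 * (r⁻¹ * K1 x ^ 2 + r * g (x a) ^ 2))) :=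
      (BM.const _).mul ((BM.const _).mul
        (((BM.const _).mul (hK1bm.pow 2)).add ((BM.const _).mul (hga.pow 2))))
    calc |∫ x, K1 x * (g (x a) * R x) ∂(piM V μ)|
        ≤ ∫ x, |K1 x * (g (x a) * R x)| ∂(piM V μ) := abs_integral_le_integral_abs
      _ ≤ ∫ x, C * (1 / 2 * (r⁻¹ * K1 x ^ 2 + r * g (x a) ^ 2)) ∂(piM V μ) :=
          integral_mono (((hK1bm.mul (hga.mul hR)).abs).integrable _) (hbmR.integrable _) hpt
      _ = C * (1 / 2 * (r⁻¹ * ∫ x, K1 x ^ 2 ∂(piM V μ) +
            r * ∫ x : V → Ω, g (x a) ^ 2 ∂(piM V μ))) := by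
          rw [integral_const_mul, integral_const_mul, integral_add, integral_const_mul,
            integral_const_mul]
          · exact ((BM.const _).mul (hK1bm.pow 2)).integrable _
          · exact ((BM.const _).mul (hga.pow 2)).integrable _
      _ ≤ _ := by
          rw [hb2]
          have h1 : 0 ≤ r⁻¹ := (inv_pos.mpr hr).le
          gcongr
  -- optimise
  set P := (p.map β).prod with hP
  set A := Real.sqrt (ck μ U k) with hA
  set B := Real.sqrt (∫ s, g s ^ 2 ∂μ) with hB
  have hA2 : A ^ 2 = ck μ U k := Real.sq_sqrt hck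
  have hB2 : B ^ 2 = ∫ s, g s ^ 2 ∂μ := Real.sq_sqrt hg2
  have hA0 : 0 ≤ A := Real.sqrt_nonneg _
  have hB0 : 0 ≤ B := Real.sqrt_nonneg _
  rw [← hA2, ← hB2] at key
  -- use r = (P A + δ) / (B + δ)
  apply le_of_forall_pos_le_add
  intro e he
  -- continuity argument: choose δ small
  have hlim : Filter.Tendsto (fun δ : ℝ => C * ((P * A + δ) * (B + δ)))
      (nhdsWithin 0 (Set.Ioi 0)) (nhds (C * ((P * A + 0) * (B + 0)))) := by
    apply Filter.Tendsto.mono_left _ nhdsWithin_le_nhds
    exact Continuous.tendsto (by fun_prop) 0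
  have hev : ∀ᶠ δ in nhdsWithin (0:ℝ) (Set.Ioi 0),
      C * ((P * A + δ) * (B + δ)) < C * P * (A * B) + e := by
    apply hlim.eventually_lt_const
    have : C * ((P * A + 0) * (B + 0)) = C * P * (A * B) := by ring
    rw [this]
    linarith
  obtain ⟨δ, hδ1, hδ2⟩ := (hev.and self_mem_nhdsWithin).exists
  have hδ : (0:ℝ) < δ := hδ2
  refine le_trans ?_ hδ1.le
  have hPA : 0 ≤ P * A := mul_nonneg hpos1.le hA0
  have h1 : 0 < P * A + δ := by linarith
  have h2 : 0 < B + δ := by linarith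
  have h3 := key ((P * A + δ) / (B + δ)) (div_pos h1 h2)
  refine h3.trans (mul_le_mul_of_nonneg_left ?_ hC0)
  have e1 : ((P * A + δ) / (B + δ))⁻¹ * (P ^ 2 * A ^ 2) ≤ (P * A + δ) * (B + δ) := by
    rw [inv_div]
    have : P ^ 2 * A ^ 2 ≤ (P * A + δ) ^ 2 := by nlinarith
    calc (B + δ) / (P * A + δ) * (P ^ 2 * A ^ 2) ≤ (B + δ) / (P * A + δ) * (P * A + δ) ^ 2 := by
          gcongr
      _ = (P * A + δ) * (B + δ) := by field_simp
  have e2 : (P * A + δ) / (B + δ) * B ^ 2 ≤ (P * A + δ) * (B + δ) := by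
    have : B ^ 2 ≤ (B + δ) ^ 2 := by nlinarith
    calc (P * A + δ) / (B + δ) * B ^ 2 ≤ (P * A + δ) / (B + δ) * (B + δ) ^ 2 := by
          gcongr
      _ = (P * A + δ) * (B + δ) := by field_simp
  linarith

end Vale.Agent.P050.R2.H612
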