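import Vale.Agent.P050.R2.H300.Defs
import Vale.Agent.P050.R2.H612.Split

/-!
# P050, dense targets: the analytic path bounds

Functions of few variables are assigned to the inner vertices of a path on which they depend.
-/

set_option linter.all false

open MeasureTheory Finset

namespace Vale.Agent.P050.Dense

open Vale.Agent.P050

section assign

/-- a product over `T`, sorted by the entries of a list -/
lemma prod_assign {ι V : Type*} (P : V → ι → Prop) (f : ι → ℝ) (J : V → Finset ι) :
    ∀ (l : List V) (T T0 : Finset ι), l.Nodup →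
      (∀ j ∈ T, ∀ v ∈ l, P v j → ∀ u ∈ l, u ≠ v → ¬ P u j) →
      (∀ v ∈ l, ∀ j, j ∈ J v ↔ j ∈ T ∧ P v j) →
      (∀ j, j ∈ T0 ↔ j ∈ T ∧ ∀ v ∈ l, ¬ P v j) →
      ∏ j ∈ T, f j = (l.map (fun v => ∏ j ∈ J v, f j)).prod * ∏ j ∈ T0, f j := by
  classical
  intro l
  induction l with
  | nil =>
    intro T T0 _ _ _ h0
    have : T0 = T := by
      ext j
      rw [h0 j]
      simp
    rw [this]
    simp
  | cons w l ih =>
    intro T T0 hl hP hJ h0
    have hwl : w ∉ l := (List.nodup_cons.mp hl).1
    have hl' : l.Nodup := (List.nodup_cons.mp hl).2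
    have h1 := ih (T \ J w) T0 hl' (by
      intro j hj v hv h u hu huv
      exact hP j (Finset.mem_sdiff.mp hj).1 v (List.mem_cons_of_mem _ hv) h u
        (List.mem_cons_of_mem _ hu) huv)
      (by
        intro v hv j
        rw [hJ v (List.mem_cons_of_mem _ hv) j, Finset.mem_sdiff, hJ w List.mem_cons_self j]
        constructor
        · rintro ⟨a1, a2⟩
          refine ⟨⟨a1, ?_⟩, a2⟩
          rintro ⟨-, a3⟩
          exact hP j a1 v (List.mem_cons_of_mem _ hv) a2 w List.mem_cons_self
            (by intro h; subst h; exact hwl hv) a3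
        · rintro ⟨⟨a1, _⟩, a2⟩
          exact ⟨a1, a2⟩)
      (by
        intro j
        rw [h0 j, Finset.mem_sdiff, hJ w List.mem_cons_self j]
        constructor
        · rintro ⟨a1, a2⟩
          exact ⟨⟨a1, fun a3 => a2 w List.mem_cons_self a3.2⟩,
            fun v hv => a2 v (List.mem_cons_of_mem _ hv)⟩
        · rintro ⟨⟨a1, a2⟩, a3⟩
          refine ⟨a1, ?_⟩
          intro v hv
          rcases List.mem_cons.mp hv with rfl | hv
          · exact fun a4 => a2 ⟨a1, a4⟩
          · exact a3 v hv)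
    have hsub : J w ⊆ T := fun j hj => ((hJ w List.mem_cons_self j).mp hj).1
    rw [← Finset.prod_sdiff hsub, h1, List.map_cons, List.prod_cons]
    ring

end assign

variable {V : Type*} [Fintype V] [DecidableEq V] {Ω : Type*} [MeasurableSpace Ω]
variable (μ : Measure Ω) [IsProbabilityMeasure μ] {U : Sym2 Ω → ℝ}

open scoped Classical in
/-- the functions which depend on the coordinate `v` -/
noncomputable def dep {ι : Type*} (T : Finset ι) (h : ι → (V → Ω) → ℝ) (v : V) : Finset ι :=
  T.filter (fun j => ¬ Ind v (h j))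

open scoped Classical in
/-- the functions which depend on no entry of the list -/
noncomputable def rst {ι : Type*} (T : Finset ι) (h : ι → (V → Ω) → ℝ) (l : List V) : Finset ι :=
  T.filter (fun j => ∀ v ∈ l, Ind v (h j))

lemma mem_dep {ι : Type*} {T : Finset ι} {h : ι → (V → Ω) → ℝ} {v : V} {j : ι} :
    j ∈ dep T h v ↔ j ∈ T ∧ ¬ Ind v (h j) := by
  classical
  unfold dep
  rw [Finset.mem_filter]

lemma mem_rst {ι : Type*} {T : Finset ι} {h : ι → (V → Ω) → ℝ} {l : List V} {j : ι} :
    j ∈ rst T h l ↔ j ∈ T ∧ ∀ v ∈ l, Ind v (h j) := by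
  classical
  unfold rst
  rw [Finset.mem_filter]

/-- the decoration at `v` : the functions which depend on the coordinate `v` -/
noncomputable def decT {ι : Type*} (T : Finset ι) (h : ι → (V → Ω) → ℝ) (v : V) (z : V → Ω)
    (y : Ω) : ℝ :=
  ∏ j ∈ dep T h v, h j (Function.update z v y)

lemma bm_decT {ι : Type*} (T : Finset ι) (h : ι → (V → Ω) → ℝ) (hbm : ∀ j ∈ T, BM (h j))
    (v : V) : BM (fun q : (V → Ω) × Ω => decT T h v q.1 q.2) := by
  unfold decT
  exact BM.finprod _ fun j hj => (hbm j (mem_dep.mp hj).1).comp (measurable_upd v)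

lemma decT_self {ι : Type*} (T : Finset ι) (h : ι → (V → Ω) → ℝ) (v : V) (z : V → Ω) :
    decT T h v z (z v) = ∏ j ∈ dep T h v, h j z := by
  unfold decT
  rw [Function.update_eq_self]

lemma decT_ind {ι : Type*} (T : Finset ι) (h : ι → (V → Ω) → ℝ) {u v : V}
    (hu : u ≠ v → ∀ j ∈ T, ¬ Ind v (h j) → Ind u (h j)) : Ind u (decT T h v) := by
  intro x z
  ext y
  unfold decT
  apply Finset.prod_congr rfl
  intro j hj
  rw [mem_dep] at hj
  by_cases huv : u = v
  · subst huv
    rw [Function.update_idem]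
  · rw [Function.update_comm huv]
    exact hu huv j hj.1 hj.2 _ _

lemma abs_decT_le {ι : Type*} (T : Finset ι) (h : ι → (V → Ω) → ℝ) (β : ι → ℝ)
    (hb : ∀ j ∈ T, ∀ z, |h j z| ≤ β j) (v : V) (z : V → Ω) (y : Ω) :
    |decT T h v z y| ≤ ∏ j ∈ dep T h v, β j := by
  unfold decT
  rw [Finset.abs_prod]
  exact Finset.prod_le_prod (fun _ _ => abs_nonneg _)
    fun j hj => hb j (mem_dep.mp hj).1 _

lemma pathProd_decT {ι : Type*} (T : Finset ι) (h : ι → (V → Ω) → ℝ) (p : List V) (a b : V)
    (z : V → Ω) :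
    pathProd U (decT T h) a p b z = pathProd U (fun _ _ _ => 1) a p b z *
      (p.map (fun v => ∏ j ∈ dep T h v, h j z)).prod := by
  rw [pathProd_eq, pathProd_eq]
  have h1 : (p.map (fun _ : V => (1:ℝ))).prod = 1 := by
    simp
  rw [h1, mul_one]
  congr 2
  apply List.map_congr_left
  intro v _
  exact decT_self T h v z

/-- two halves of a path with functions of few variables -/
theorem path_bound2 (hU : Good U 1) {ι : Type*} (T : Finset ι) (h : ι → (V → Ω) → ℝ) (β : ι → ℝ)
    (hbm : ∀ j ∈ T, BM (h j)) (hβ : ∀ j ∈ T, 0 < β j) (hb : ∀ j ∈ T, ∀ z, |h j z| ≤ β j)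
    {k : ℕ} {a m b : V} {p q : List V} (hp : p.length + 1 = k) (hq : q.length + 1 = k)
    (nd1 : (a :: p ++ m :: q).Nodup) (nd2 : (p ++ m :: q ++ [b]).Nodup)
    (hd1 : ∀ j ∈ T, ∀ u ∈ p, ¬ Ind u (h j) → ∀ v ∈ a :: p ++ m :: q, v ≠ u → Ind v (h j))
    (hd2 : ∀ j ∈ T, ∀ u ∈ q, ¬ Ind u (h j) → ∀ v ∈ p ++ m :: q ++ [b], v ≠ u → Ind v (h j)) :
    |∫ z, pathProd U (fun _ _ _ => 1) a p m z * pathProd U (fun _ _ _ => 1) m q b z *
        ∏ j ∈ T, h j z ∂(piM V μ)| ≤ (∏ j ∈ T, β j) * ck μ U k := by
  classical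
  -- combinatorics of the lists
  have nd1' := nd1
  have nd2' := nd2
  simp only [List.cons_append, List.nodup_cons, List.nodup_append, List.mem_append,
    List.mem_cons, List.mem_singleton, List.nodup_singleton, not_or, List.append_assoc,
    List.not_mem_nil, or_false, not_false_eq_true, true_and, and_true, List.nodup_nil] at nd1' nd2'
  obtain ⟨⟨hap, ham, haq⟩, hpn, ⟨hmq, hqn⟩, hpmq⟩ := nd1'
  obtain ⟨-, ⟨⟨-, hmb⟩, -, hqb⟩, hpmqb⟩ := nd2'
  have hmp : m ∉ p := fun hm => hpmq m hm m (Or.inl rfl) rfl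
  have hpq : ∀ v ∈ p, v ∉ q := fun v hv hv' => hpmq v hv v (Or.inr hv') rfl
  have hbp : b ∉ p := fun hm => hpmqb b hm b (Or.inr (Or.inr rfl)) rfl
  have hbq : b ∉ q := fun hm => hqb b hm b rfl rfl
  have hnd : (p ++ q).Nodup := by
    rw [List.nodup_append]
    exact ⟨hpn, hqn, fun u hu v hv huv => hpq u hu (huv ▸ hv)⟩
  have e1 : ∀ j ∈ T, ∀ v ∈ p ++ q, ¬ Ind v (h j) → ∀ u ∈ p ++ q, u ≠ v → ¬ ¬ Ind u (h j) := by
    intro j hj v hv hi u hu huv
    rw [not_not]
    rcases List.mem_append.mp hv with hv | hv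
    · apply hd1 j hj v hv hi u _ huv
      rcases List.mem_append.mp hu with hu | hu
      · simp [hu]
      · simp [hu]
    · apply hd2 j hj v hv hi u _ huv
      rcases List.mem_append.mp hu with hu | hu
      · simp [hu]
      · simp [hu]
  set T0 := rst T h (p ++ q) with hT0
  have as1 := fun z => prod_assign (fun v j => ¬ Ind v (h j)) (fun j => h j z) (dep T h) (p ++ q) T
    T0 hnd e1 (fun v _ j => mem_dep) (fun j => by rw [hT0, mem_rst]; simp only [not_not])
  have as2 := prod_assign (fun v j => ¬ Ind v (h j)) β (dep T h) (p ++ q) T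
    T0 hnd e1 (fun v _ j => mem_dep) (fun j => by rw [hT0, mem_rst]; simp only [not_not])
  rw [List.map_append, List.prod_append] at as2
  simp only [List.map_append, List.prod_append] at as1
  have hT0s : ∀ j ∈ T0, j ∈ T := fun j hj => (mem_rst.mp hj).1
  have key := R2.H612.split_path μ (ε := 1) hU (D := decT T h) (bm_decT T h hbm) hp hq ham hmb
    (a := a) (b := b) (m := m)
    (by
      simp only [List.cons_append, List.nodup_cons, List.nodup_append, List.mem_append,
        List.mem_singleton, List.nodup_singleton, not_or]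
      exact ⟨⟨hap, ham⟩, hpn, ⟨List.not_mem_nil, List.nodup_nil⟩, fun u hu v hv huv => hmp (by rw [← hv, ← huv]; exact hu)⟩)
    (by
      simp only [List.cons_append, List.nodup_cons, List.nodup_append, List.mem_append,
        List.mem_singleton, List.nodup_singleton, not_or]
      exact ⟨⟨hmq, hmb⟩, hqn, ⟨List.not_mem_nil, List.nodup_nil⟩, fun u hu v hv huv => hbq (by rw [← hv, ← huv]; exact hu)⟩)
    hpq hbp haq
    (by
      intro v hv u hu
      apply decT_ind
      intro huv j hj hi
      exact not_not.mp (e1 j hj v hv hi u hu huv))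
    (by
      intro v hv
      apply decT_ind
      intro huv j hj hi
      exact hd1 j hj v hv hi a (by simp) huv)
    (by
      intro v hv
      apply decT_ind
      intro huv j hj hi
      exact hd1 j hj v hv hi m (by simp) huv)
    (by
      intro v hv
      apply decT_ind
      intro huv j hj hi
      exact hd2 j hj v hv hi m (by simp) huv)
    (by
      intro v hv
      apply decT_ind
      intro huv j hj hi
      exact hd2 j hj v hv hi b (by simp) huv)
    (R := fun z => ∏ j ∈ T0, h j z)
    (BM.finprod _ fun j hj => hbm j (hT0s j hj))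
    (by
      intro v hv x y
      apply Finset.prod_congr rfl
      intro j hj
      exact (mem_rst.mp hj).2 v hv x y)
    (β := fun v => ∏ j ∈ dep T h v, β j)
    (by
      intro v hv
      exact Finset.prod_pos fun j hj => hβ j (mem_dep.mp hj).1)
    (by
      intro v hv x y
      exact abs_decT_le T h β hb v x y)
    (C := ∏ j ∈ T0, β j)
    (by
      intro x
      rw [Finset.abs_prod]
      exact Finset.prod_le_prod (fun _ _ => abs_nonneg _) fun j hj => hb j (hT0s j hj) x)
    (Finset.prod_nonneg fun j hj => (hβ j (hT0s j hj)).le)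
  have e2 : ∀ z, pathProd U (fun _ _ _ => 1) a p m z * pathProd U (fun _ _ _ => 1) m q b z *
        ∏ j ∈ T, h j z =
      pathProd U (decT T h) a p m z * (pathProd U (decT T h) m q b z * ∏ j ∈ T0, h j z) := by
    intro z
    rw [as1 z, pathProd_decT, pathProd_decT]
    ring
  simp only [e2]
  refine key.trans (le_of_eq ?_)
  rw [as2]
  ring

/-- a path with a marked first vertex, and functions of few variables -/
theorem path_bound1 (hU : Good U 1) {g : Ω → ℝ} (hg : BM g) {ι : Type*} (T : Finset ι)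
    (h : ι → (V → Ω) → ℝ) (β : ι → ℝ)
    (hbm : ∀ j ∈ T, BM (h j)) (hβ : ∀ j ∈ T, 0 < β j) (hb : ∀ j ∈ T, ∀ z, |h j z| ≤ β j)
    {k : ℕ} {a b : V} {p : List V} (hp : p.length + 1 = k)
    (nd : (a :: p ++ [b]).Nodup)
    (hd : ∀ j ∈ T, ∀ u ∈ p, ¬ Ind u (h j) → ∀ v ∈ a :: p ++ [b], v ≠ u → Ind v (h j)) :
    |∫ z, g (z a) * pathProd U (fun _ _ _ => 1) a p b z * ∏ j ∈ T, h j z ∂(piM V μ)| ≤
      (∏ j ∈ T, β j) * Real.sqrt (ck μ U k) * Real.sqrt (∫ s, g s ^ 2 ∂μ) := by
  classical
  have nd' := nd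
  simp only [List.cons_append, List.nodup_cons, List.nodup_append, List.mem_append,
    List.mem_singleton, List.nodup_singleton, not_or] at nd'
  obtain ⟨⟨hap, hab⟩, hpn, -, hpb⟩ := nd'
  have e1 : ∀ j ∈ T, ∀ v ∈ p, ¬ Ind v (h j) → ∀ u ∈ p, u ≠ v → ¬ ¬ Ind u (h j) := by
    intro j hj v hv hi u hu huv
    rw [not_not]
    exact hd j hj v hv hi u (by simp [hu]) huv
  set T0 := rst T h p with hT0
  have as1 := fun z => prod_assign (fun v j => ¬ Ind v (h j)) (fun j => h j z) (dep T h) p T
    T0 hpn e1 (fun v _ j => mem_dep) (fun j => by rw [hT0, mem_rst]; simp only [not_not])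
  have as2 := prod_assign (fun v j => ¬ Ind v (h j)) β (dep T h) p T
    T0 hpn e1 (fun v _ j => mem_dep) (fun j => by rw [hT0, mem_rst]; simp only [not_not])
  have hT0s : ∀ j ∈ T0, j ∈ T := fun j hj => (mem_rst.mp hj).1
  have key := R2.H612.half_path μ (ε := 1) hU (D := decT T h) (bm_decT T h hbm) hp hab nd
    (by
      intro v hv u hu
      apply decT_ind
      intro huv j hj hi
      exact not_not.mp (e1 j hj v hv hi u hu huv))
    (by
      intro v hv
      apply decT_ind
      intro huv j hj hi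
      exact hd j hj v hv hi a (by simp) huv)
    (by
      intro v hv
      apply decT_ind
      intro huv j hj hi
      exact hd j hj v hv hi b (by simp) huv)
    hg
    (R := fun z => ∏ j ∈ T0, h j z)
    (BM.finprod _ fun j hj => hbm j (hT0s j hj))
    (by
      intro v hv x y
      apply Finset.prod_congr rfl
      intro j hj
      exact (mem_rst.mp hj).2 v hv x y)
    (β := fun v => ∏ j ∈ dep T h v, β j)
    (by
      intro v hv
      exact Finset.prod_pos fun j hj => hβ j (mem_dep.mp hj).1)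
    (by
      intro v hv x y
      exact abs_decT_le T h β hb v x y)
    (C := ∏ j ∈ T0, β j)
    (by
      intro x
      rw [Finset.abs_prod]
      exact Finset.prod_le_prod (fun _ _ => abs_nonneg _) fun j hj => hb j (hT0s j hj) x)
    (Finset.prod_nonneg fun j hj => (hβ j (hT0s j hj)).le)
  have e2 : ∀ z, g (z a) * pathProd U (fun _ _ _ => 1) a p b z * ∏ j ∈ T, h j z =
      pathProd U (decT T h) a p b z * (g (z a) * ∏ j ∈ T0, h j z) := by
    intro z
    rw [as1 z, pathProd_decT]
    ring
  simp only [e2]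
  refine key.trans (le_of_eq ?_)
  rw [as2]
  ring

end Vale.Agent.P050.Dense
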