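import Vale.Agent.P050.R2.H612.M4

/-!
# P050, dense targets: open paths which are longer than half of the cycle

Every edge beyond the first `k` costs a factor `κ` (Schur test).
-/

set_option linter.all false

open MeasureTheory Finset

namespace Vale.Agent.P050.Dense

open Vale.Agent.P050

namespace H612

variable {V : Type*} [Fintype V] [DecidableEq V] {Ω : Type*} [MeasurableSpace Ω]
variable {U : Sym2 Ω → ℝ} {ε κ : ℝ} (μ : Measure Ω) [IsProbabilityMeasure μ]

/-- Cauchy-Schwarz with a nonnegative weight -/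
lemma cs_weight {X : Type*} [MeasurableSpace X] (ν : Measure X) [IsProbabilityMeasure ν]
    {u f : X → ℝ} (hu : BM u) (hf : BM f) {A : ℝ} (hA : ∫ x, |u x| ∂ν ≤ A) (hA0 : 0 ≤ A) :
    (∫ x, u x * f x ∂ν) ^ 2 ≤ A * ∫ x, |u x| * f x ^ 2 ∂ν := by
  set C := ∫ x, u x * f x ∂ν with hC
  set S := ∫ x, |u x| * f x ^ 2 ∂ν with hS
  have hS0 : 0 ≤ S := integral_nonneg fun _ => mul_nonneg (abs_nonneg _) (sq_nonneg _)
  have h1 : ∀ t : ℝ, 0 < t → |C| ≤ 1 / 2 * (t * A + t⁻¹ * S) := by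
    intro t ht
    have hpt : ∀ x, |u x * f x| ≤ 1 / 2 * (t * |u x| + t⁻¹ * (|u x| * f x ^ 2)) := by
      intro x
      have h2 : 0 ≤ |u x| * (t⁻¹ * (t - |f x|) ^ 2) := by positivity
      have h3 : |u x| * (t⁻¹ * (t - |f x|) ^ 2) =
          t * |u x| + t⁻¹ * (|u x| * |f x| ^ 2) - 2 * (|u x| * |f x|) := by
        field_simp
        ring
      rw [h3, sq_abs] at h2
      rw [abs_mul]
      linarith
    calc |C| ≤ ∫ x, |u x * f x| ∂ν := abs_integral_le_integral_abs
      _ ≤ ∫ x, 1 / 2 * (t * |u x| + t⁻¹ * (|u x| * f x ^ 2)) ∂ν := by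
          refine integral_mono ((hu.mul hf).abs.integrable _) ?_ hpt
          exact ((BM.const _).mul (((BM.const _).mul hu.abs).add
            ((BM.const _).mul (hu.abs.mul (hf.pow 2))))).integrable _
      _ = 1 / 2 * (t * ∫ x, |u x| ∂ν + t⁻¹ * S) := by
          rw [integral_const_mul, integral_add, integral_const_mul, integral_const_mul]
          · exact ((BM.const _).mul hu.abs).integrable _
          · exact ((BM.const _).mul (hu.abs.mul (hf.pow 2))).integrable _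
      _ ≤ _ := by gcongr
  -- optimise over `t`
  have h2 : ∀ δ : ℝ, 0 < δ → C ^ 2 ≤ (A + δ) * (S + δ) := by
    intro δ hδ
    have hAδ : 0 < A + δ := by linarith
    have hSδ : 0 < S + δ := by linarith
    have h3 := h1 (Real.sqrt ((S + δ) / (A + δ))) (Real.sqrt_pos.mpr (div_pos hSδ hAδ))
    set t := Real.sqrt ((S + δ) / (A + δ)) with htd
    have ht : 0 < t := Real.sqrt_pos.mpr (div_pos hSδ hAδ)
    have ht2 : t ^ 2 = (S + δ) / (A + δ) := Real.sq_sqrt (div_pos hSδ hAδ).le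
    have e1 : t * (A + δ) = t⁻¹ * (S + δ) := by
      have : t ^ 2 * (A + δ) = S + δ := by rw [ht2]; field_simp
      field_simp
      linarith
    have h4 : |C| ≤ t * (A + δ) := by
      have h5 : t * A ≤ t * (A + δ) := by gcongr; linarith
      have h6 : t⁻¹ * S ≤ t⁻¹ * (S + δ) := by
        have := inv_pos.mpr ht
        gcongr
        linarith
      rw [← e1] at h6
      linarith
    have h7 : C ^ 2 ≤ (t * (A + δ)) ^ 2 := by
      rw [← sq_abs]
      exact pow_le_pow_left₀ (abs_nonneg _) h4 2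
    calc C ^ 2 ≤ (t * (A + δ)) ^ 2 := h7
      _ = t ^ 2 * (A + δ) * (A + δ) := by ring
      _ = (A + δ) * (S + δ) := by rw [ht2]; field_simp
  apply le_of_forall_pos_le_add
  intro e he
  have hlim : Filter.Tendsto (fun δ : ℝ => (A + δ) * (S + δ))
      (nhdsWithin 0 (Set.Ioi 0)) (nhds ((A + 0) * (S + 0))) := by
    apply Filter.Tendsto.mono_left _ nhdsWithin_le_nhds
    exact Continuous.tendsto (by fun_prop) 0
  have hev : ∀ᶠ δ in nhdsWithin (0:ℝ) (Set.Ioi 0), (A + δ) * (S + δ) < A * S + e := by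
    apply hlim.eventually_lt_const
    rw [add_zero, add_zero]
    linarith
  obtain ⟨δ, hδ1, hδ2⟩ := (hev.and self_mem_nhdsWithin).exists
  exact (h2 δ hδ2).trans hδ1.le

/-- one more edge costs a factor `κ` -/
lemma kern_schur (hU : Good U ε) (hκ0 : 0 ≤ κ) (hκ : ∀ s, ∫ t, |two U s t| ∂μ ≤ κ)
    (L : List (Ω → ℝ)) (hL : ∀ D ∈ L, BM D) {D : Ω → ℝ} (hD : BM D) {β : ℝ}
    (hDβ : ∀ y, |D y| ≤ β) :
    ∫ s, ∫ t, (kern μ (two U) (D :: L) s t) ^ 2 ∂μ ∂μ ≤
      (β * κ) ^ 2 * ∫ s, ∫ t, (kern μ (two U) L s t) ^ 2 ∂μ ∂μ := by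
  set K := kern μ (two U) L with hK
  have hKbm : BM (Function.uncurry K) := bm_kern0 μ hU.bm_two L hL
  have hβ2 : ∀ y, D y ^ 2 ≤ β ^ 2 := by
    intro y
    rw [← sq_abs]
    exact pow_le_pow_left₀ (abs_nonneg _) (hDβ y) 2
  -- pointwise
  have h1 : ∀ s t, (kern μ (two U) (D :: L) s t) ^ 2 ≤
      κ * β ^ 2 * ∫ y, |two U s y| * K y t ^ 2 ∂μ := by
    intro s t
    have hu : BM (fun y => two U s y) :=
      hU.bm_two.comp (g := fun y : Ω => (s, y)) (by fun_prop)
    have hKt : BM (fun y => K y t) := hKbm.comp (g := fun y : Ω => (y, t)) (by fun_prop)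
    have h2 := cs_weight μ hu (hD.mul hKt) (hκ s) hκ0
    have e1 : kern μ (two U) (D :: L) s t = ∫ y, two U s y * (D y * K y t) ∂μ := by
      simp only [kern, hK]
      congr 1
      ext y
      ring
    rw [e1]
    refine h2.trans ?_
    rw [mul_assoc]
    apply mul_le_mul_of_nonneg_left _ hκ0
    rw [← integral_const_mul]
    refine integral_mono ((hu.abs.mul ((hD.mul hKt).pow 2)).integrable _)
      (((BM.const _).mul (hu.abs.mul (hKt.pow 2))).integrable _) ?_
    intro y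
    simp only
    have h3 := hβ2 y
    have h4 : 0 ≤ |two U s y| * K y t ^ 2 := by positivity
    calc |two U s y| * (D y * K y t) ^ 2 = D y ^ 2 * (|two U s y| * K y t ^ 2) := by ring
      _ ≤ β ^ 2 * (|two U s y| * K y t ^ 2) := mul_le_mul_of_nonneg_right h3 h4
  have hbm3 : BM (fun q : (Ω × Ω) × Ω => |two U q.1.1 q.2| * K q.2 q.1.2 ^ 2) :=
    (hU.bm_two.comp (g := fun q : (Ω × Ω) × Ω => (q.1.1, q.2)) (by fun_prop)).abs.mul
      ((hKbm.comp (g := fun q : (Ω × Ω) × Ω => (q.2, q.1.2)) (by fun_prop)).pow 2)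
  have hbm2 : BM (fun q : Ω × Ω => ∫ y, |two U q.1 y| * K y q.2 ^ 2 ∂μ) := hbm3.integral_right μ
  have hbmL : BM (Function.uncurry (kern μ (two U) (D :: L))) :=
    bm_kern0 μ hU.bm_two (D :: L) (by
      intro E hE
      rcases List.mem_cons.mp hE with rfl | hE
      · exact hD
      · exact hL E hE)
  -- integrate
  have h2 : ∫ s, ∫ t, (kern μ (two U) (D :: L) s t) ^ 2 ∂μ ∂μ ≤
      ∫ s, ∫ t, κ * β ^ 2 * ∫ y, |two U s y| * K y t ^ 2 ∂μ ∂μ ∂μ := by
    apply integral_mono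
    · exact ((hbmL.pow 2).integral_right μ).integrable _
    · exact (((BM.const _).mul hbm2).integral_right μ).integrable _
    · intro s
      simp only
      apply integral_mono
      · exact ((hbmL.pow 2).comp (g := fun t : Ω => (s, t)) (by fun_prop)).integrable _
      · exact (((BM.const _).mul hbm2).comp (g := fun t : Ω => (s, t)) (by fun_prop)).integrable _
      · intro t
        exact h1 s t
  refine h2.trans ?_
  have h3 : ∫ s, ∫ t, κ * β ^ 2 * ∫ y, |two U s y| * K y t ^ 2 ∂μ ∂μ ∂μ =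
      κ * β ^ 2 * ∫ s, ∫ y, |two U s y| * ∫ t, K y t ^ 2 ∂μ ∂μ ∂μ := by
    rw [← integral_const_mul]
    congr 1
    ext s
    rw [integral_const_mul]
    congr 1
    have e1 : ∀ y, |two U s y| * ∫ t, K y t ^ 2 ∂μ = ∫ t, |two U s y| * K y t ^ 2 ∂μ := by
      intro y
      rw [integral_const_mul]
    simp only [e1]
    apply integral_integral_swap
    exact (hbm3.comp (g := fun q : Ω × Ω => ((s, q.1), q.2)) (by fun_prop)).integrable _
  rw [h3]
  have hKs : BM (fun y => ∫ t, K y t ^ 2 ∂μ) := (hKbm.pow 2).integral_right μ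
  have hKs0 : ∀ y, 0 ≤ ∫ t, K y t ^ 2 ∂μ := fun y => integral_nonneg fun _ => sq_nonneg _
  have h4 : ∫ s, ∫ y, |two U s y| * ∫ t, K y t ^ 2 ∂μ ∂μ ∂μ =
      ∫ y, (∫ s, |two U s y| ∂μ) * ∫ t, K y t ^ 2 ∂μ ∂μ := by
    rw [integral_integral_swap]
    · congr 1
      ext y
      rw [integral_mul_const]
    · exact (hU.bm_two.abs.mul (hKs.comp (g := fun q : Ω × Ω => q.2) (by fun_prop))).integrable _
  have h5 : ∫ y, (∫ s, |two U s y| ∂μ) * ∫ t, K y t ^ 2 ∂μ ∂μ ≤
      κ * ∫ y, ∫ t, K y t ^ 2 ∂μ ∂μ := by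
    rw [← integral_const_mul]
    have hcol : BM (fun y => ∫ s, |two U s y| ∂μ) :=
      (hU.bm_two.abs.comp (g := fun q : Ω × Ω => (q.2, q.1)) (by fun_prop)).integral_right μ
    apply integral_mono ((hcol.mul hKs).integrable _) (((BM.const _).mul hKs).integrable _)
    intro y
    simp only
    apply mul_le_mul_of_nonneg_right _ (hKs0 y)
    have e2 : ∀ s, |two U s y| = |two U y s| := fun s => by rw [two_symm]
    simp only [e2]
    exact hκ y
  rw [h4]
  calc κ * β ^ 2 * ∫ y, (∫ s, |two U s y| ∂μ) * ∫ t, K y t ^ 2 ∂μ ∂μ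
      ≤ κ * β ^ 2 * (κ * ∫ y, ∫ t, K y t ^ 2 ∂μ ∂μ) := by
        apply mul_le_mul_of_nonneg_left h5
        positivity
    _ = (β * κ) ^ 2 * ∫ s, ∫ t, K s t ^ 2 ∂μ ∂μ := by ring

/-- second moment of a decorated path of `k + r` edges -/
lemma kern_sq_bound_r (hU : Good U ε) (hκ0 : 0 ≤ κ) (hκ : ∀ s, ∫ t, |two U s t| ∂μ ≤ κ)
    {k : ℕ} (hk : 1 ≤ k) (r : ℕ) (p : List V) (hp : p.length + 1 = k + r)
    (D : V → Ω → ℝ) (β : V → ℝ)
    (hβ : ∀ v ∈ p, 0 < β v) (hD : ∀ v ∈ p, Measurable (D v)) (hDb : ∀ v ∈ p, ∀ y, |D v y| ≤ β v) :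
    ∫ s, ∫ t, (kern μ (two U) (p.map D) s t) ^ 2 ∂μ ∂μ ≤
      ((p.map β).prod) ^ 2 * (κ ^ (2 * r) * ck μ U k) := by
  induction r generalizing p with
  | zero =>
    have h1 := kern_sq_bound μ hU p D β hβ hD hDb
    rw [hp] at h1
    simpa using h1
  | succ r ih =>
    obtain ⟨v, p, rfl⟩ : ∃ v p', p = v :: p' := by
      cases p with
      | nil => simp only [List.length_nil] at hp; omega
      | cons v p => exact ⟨v, p, rfl⟩
    have hp' : p.length + 1 = k + r := by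
      rw [List.length_cons] at hp
      omega
    have hm : ∀ u ∈ p, u ∈ v :: p := fun u hu => List.mem_cons_of_mem _ hu
    have h1 := ih p hp' (fun u hu => hβ u (hm u hu)) (fun u hu => hD u (hm u hu))
      (fun u hu => hDb u (hm u hu))
    have hbm : ∀ u ∈ v :: p, BM (D u) := fun u hu => ⟨hD u hu, β u, hDb u hu⟩
    have h2 := kern_schur μ hU hκ0 hκ (p.map D) (by
      intro E hE
      obtain ⟨u, hu, rfl⟩ := List.mem_map.mp hE
      exact hbm u (hm u hu)) (hbm v List.mem_cons_self) (hDb v List.mem_cons_self)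
    rw [List.map_cons, List.map_cons, List.prod_cons]
    refine h2.trans ?_
    calc (β v * κ) ^ 2 * ∫ s, ∫ t, (kern μ (two U) (p.map D) s t) ^ 2 ∂μ ∂μ
        ≤ (β v * κ) ^ 2 * (((p.map β).prod) ^ 2 * (κ ^ (2 * r) * ck μ U k)) :=
          mul_le_mul_of_nonneg_left h1 (sq_nonneg _)
      _ = _ := by ring

/-- second moment of a decorated kernel evaluated at two coordinates -/
lemma int_kern_sq_le_r (hU : Good U ε) (hκ0 : 0 ≤ κ) (hκ : ∀ s, ∫ t, |two U s t| ∂μ ≤ κ)
    {D : V → (V → Ω) → Ω → ℝ}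
    (hD : ∀ v, BM (fun q : (V → Ω) × Ω => D v q.1 q.2)) {k r : ℕ} (hk : 1 ≤ k) (p : List V)
    (hp : p.length + 1 = k + r) {a b : V} (hab : a ≠ b)
    (ha : ∀ v ∈ p, Ind a (D v)) (hb : ∀ v ∈ p, Ind b (D v)) (β : V → ℝ)
    (hβ : ∀ v ∈ p, 0 < β v) (hDb : ∀ v ∈ p, ∀ x y, |D v x y| ≤ β v) :
    ∫ x, (kern μ (two U) (p.map (fun v => D v x)) (x a) (x b)) ^ 2 ∂(piM V μ) ≤
      ((p.map β).prod) ^ 2 * (κ ^ (2 * r) * ck μ U k) := by
  have hbm : BM (fun x : V → Ω =>
      (kern μ (two U) (p.map (fun v => D v x)) (x a) (x b)) ^ 2) :=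
    ((bm_kern μ hU hD p).comp (g := fun x : V → Ω => (x, (x a, x b))) (by fun_prop)).pow 2
  rw [integral_update μ b hbm]
  have e1 : ∀ x : V → Ω, ∀ t, p.map (fun v => D v (Function.update x b t)) =
      p.map (fun v => D v x) := by
    intro x t
    apply List.map_congr_left
    intro v hv
    exact hb v hv x t
  have e2 : ∀ x : V → Ω, ∀ t, p.map (fun v => D v (Function.update x a t)) =
      p.map (fun v => D v x) := by
    intro x t
    apply List.map_congr_left
    intro v hv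
    exact ha v hv x t
  simp only [e1, Function.update_self, Function.update_of_ne hab]
  have hbm2 : BM (fun x : V → Ω =>
      ∫ t, (kern μ (two U) (p.map (fun v => D v x)) (x a) t) ^ 2 ∂μ) := by
    have := ((bm_kern μ hU hD p).comp (g := fun q : (V → Ω) × Ω => (q.1, (q.1 a, q.2)))
      (by fun_prop)).pow 2
    exact this.integral_right μ
  rw [integral_update μ a hbm2]
  simp only [e2, Function.update_self]
  have hbm3 : BM (fun x : V → Ω =>
      ∫ s, ∫ t, (kern μ (two U) (p.map (fun v => D v x)) s t) ^ 2 ∂μ ∂μ) := by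
    have h1 := ((bm_kern μ hU hD p).comp
      (g := fun q : ((V → Ω) × Ω) × Ω => (q.1.1, (q.1.2, q.2))) (by fun_prop)).pow 2
    have h2 := h1.integral_right μ
    exact h2.integral_right μ
  calc ∫ x : V → Ω, ∫ s, ∫ t, (kern μ (two U) (p.map (fun v => D v x)) s t) ^ 2 ∂μ ∂μ ∂(piM V μ)
      ≤ ∫ _x : V → Ω, ((p.map β).prod) ^ 2 * (κ ^ (2 * r) * ck μ U k) ∂(piM V μ) := by
        apply integral_mono (hbm3.integrable _) (integrable_const _)
        intro x
        exact kern_sq_bound_r μ hU hκ0 hκ hk r p hp (fun v => D v x) β hβ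
          (fun v hv => (hD v).meas.comp (measurable_prodMk_left)) (fun v hv y => hDb v hv x y)
    _ = _ := by simp

/-- Cauchy-Schwarz, with a bounded factor -/
lemma cs_bounded {X : Type*} [MeasurableSpace X] (ν : Measure X) [IsProbabilityMeasure ν]
    {K G R : X → ℝ} (hK : BM K) (hG : BM G) (hR : BM R) {C A B : ℝ} (hC : ∀ x, |R x| ≤ C)
    (hC0 : 0 ≤ C) (hA0 : 0 ≤ A) (hB0 : 0 ≤ B)
    (hKA : ∫ x, K x ^ 2 ∂ν ≤ A ^ 2) (hGB : ∫ x, G x ^ 2 ∂ν ≤ B ^ 2) :
    |∫ x, K x * (G x * R x) ∂ν| ≤ C * A * B := by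
  have key : ∀ r : ℝ, 0 < r → |∫ x, K x * (G x * R x) ∂ν| ≤
      C * (1 / 2 * (r⁻¹ * A ^ 2 + r * B ^ 2)) := by
    intro r hr
    have hpt : ∀ x, |K x * (G x * R x)| ≤ C * (1 / 2 * (r⁻¹ * K x ^ 2 + r * G x ^ 2)) := by
      intro x
      have h1 := R2.H612.abs_mul_le_scaled (x := K x) (y := G x) (s := r) (t := 1) hr one_pos
      rw [show (1:ℝ) / r = r⁻¹ from one_div r, div_one] at h1
      calc |K x * (G x * R x)| = |R x| * |K x * G x| := by
            rw [← abs_mul]; congr 1; ring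
        _ ≤ _ := mul_le_mul (hC x) h1 (abs_nonneg _) hC0
    have hbmR : BM (fun x => C * (1 / 2 * (r⁻¹ * K x ^ 2 + r * G x ^ 2))) :=
      (BM.const _).mul ((BM.const _).mul
        (((BM.const _).mul (hK.pow 2)).add ((BM.const _).mul (hG.pow 2))))
    calc |∫ x, K x * (G x * R x) ∂ν|
        ≤ ∫ x, |K x * (G x * R x)| ∂ν := abs_integral_le_integral_abs
      _ ≤ ∫ x, C * (1 / 2 * (r⁻¹ * K x ^ 2 + r * G x ^ 2)) ∂ν :=
          integral_mono (((hK.mul (hG.mul hR)).abs).integrable _) (hbmR.integrable _) hpt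
      _ = C * (1 / 2 * (r⁻¹ * ∫ x, K x ^ 2 ∂ν + r * ∫ x, G x ^ 2 ∂ν)) := by
          rw [integral_const_mul, integral_const_mul, integral_add, integral_const_mul,
            integral_const_mul]
          · exact ((BM.const _).mul (hK.pow 2)).integrable _
          · exact ((BM.const _).mul (hG.pow 2)).integrable _
      _ ≤ _ := by
          have h1 : 0 ≤ r⁻¹ := (inv_pos.mpr hr).le
          gcongr
  apply le_of_forall_pos_le_add
  intro e he
  have hlim : Filter.Tendsto (fun δ : ℝ => C * ((A + δ) * (B + δ)))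
      (nhdsWithin 0 (Set.Ioi 0)) (nhds (C * ((A + 0) * (B + 0)))) := by
    apply Filter.Tendsto.mono_left _ nhdsWithin_le_nhds
    exact Continuous.tendsto (by fun_prop) 0
  have hev : ∀ᶠ δ in nhdsWithin (0:ℝ) (Set.Ioi 0),
      C * ((A + δ) * (B + δ)) < C * A * B + e := by
    apply hlim.eventually_lt_const
    have : C * ((A + 0) * (B + 0)) = C * A * B := by ring
    rw [this]
    linarith
  obtain ⟨δ, hδ1, hδ2⟩ := (hev.and self_mem_nhdsWithin).exists
  have hδ : (0:ℝ) < δ := hδ2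
  refine le_trans ?_ hδ1.le
  have h1 : 0 < A + δ := by linarith
  have h2 : 0 < B + δ := by linarith
  have h3 := key ((A + δ) / (B + δ)) (div_pos h1 h2)
  refine h3.trans (mul_le_mul_of_nonneg_left ?_ hC0)
  have e1 : ((A + δ) / (B + δ))⁻¹ * A ^ 2 ≤ (A + δ) * (B + δ) := by
    rw [inv_div]
    have : A ^ 2 ≤ (A + δ) ^ 2 := by nlinarith
    calc (B + δ) / (A + δ) * A ^ 2 ≤ (B + δ) / (A + δ) * (A + δ) ^ 2 := by
          gcongr
      _ = (A + δ) * (B + δ) := by field_simp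
  have e2 : (A + δ) / (B + δ) * B ^ 2 ≤ (A + δ) * (B + δ) := by
    have : B ^ 2 ≤ (B + δ) ^ 2 := by nlinarith
    calc (A + δ) / (B + δ) * B ^ 2 ≤ (A + δ) / (B + δ) * (B + δ) ^ 2 := by
          gcongr
      _ = (A + δ) * (B + δ) := by field_simp
  linarith

end H612

variable {V : Type*} [Fintype V] [DecidableEq V] {Ω : Type*} [MeasurableSpace Ω]
variable (μ : Measure Ω) [IsProbabilityMeasure μ] {U : Sym2 Ω → ℝ}

/-- a path of `k + r` edges with a marked first vertex, and functions of few variables -/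
theorem path_bound1r {κ : ℝ} (hU : Good U 1) (hκ0 : 0 ≤ κ)
    (hκ : ∀ s, ∫ t, |two U s t| ∂μ ≤ κ) {g : Ω → ℝ} (hg : BM g) {ι : Type*} (T : Finset ι)
    (h : ι → (V → Ω) → ℝ) (β : ι → ℝ)
    (hbm : ∀ j ∈ T, BM (h j)) (hβ : ∀ j ∈ T, 0 < β j) (hb : ∀ j ∈ T, ∀ z, |h j z| ≤ β j)
    {k r : ℕ} (hk : 1 ≤ k) {a b : V} {p : List V} (hp : p.length + 1 = k + r)
    (nd : (a :: p ++ [b]).Nodup)
    (hd : ∀ j ∈ T, ∀ u ∈ p, ¬ Ind u (h j) → ∀ v ∈ a :: p ++ [b], v ≠ u → Ind v (h j)) :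
    |∫ z, g (z a) * pathProd U (fun _ _ _ => 1) a p b z * ∏ j ∈ T, h j z ∂(piM V μ)| ≤
      (∏ j ∈ T, β j) * κ ^ r * Real.sqrt (ck μ U k) * Real.sqrt (∫ s, g s ^ 2 ∂μ) := by
  classical
  have nd' := nd
  simp only [List.cons_append, List.nodup_cons, List.nodup_append, List.mem_append,
    List.mem_singleton, List.nodup_singleton, not_or] at nd'
  obtain ⟨⟨hap, hab⟩, hpn, -, hpb⟩ := nd'
  have e1 : ∀ j ∈ T, ∀ v ∈ p, ¬ Ind v (h j) → ∀ u ∈ p, u ≠ v → ¬ ¬ Ind u (h j) := by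
    intro j hj v hv hi u hu huv
    rw [not_not]
    exact hd j hj v hv hi u (by simp [hu]) huv
  set T0 := rst T h p with hT0
  have as1 := fun z => prod_assign (fun v j => ¬ Ind v (h j)) (fun j => h j z) (dep T h) p T
    T0 hpn e1 (fun v _ j => mem_dep) (fun j => by rw [hT0, mem_rst]; simp only [not_not])
  have as2 := prod_assign (fun v j => ¬ Ind v (h j)) β (dep T h) p T
    T0 hpn e1 (fun v _ j => mem_dep) (fun j => by rw [hT0, mem_rst]; simp only [not_not])
  have hT0s : ∀ j ∈ T0, j ∈ T := fun j hj => (mem_rst.mp hj).1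
  have hDbm := bm_decT T h hbm
  have hDin : ∀ v ∈ p, ∀ u ∈ p, Ind u (decT T h v) := by
    intro v hv u hu
    apply decT_ind
    intro huv j hj hi
    exact not_not.mp (e1 j hj v hv hi u hu huv)
  have hDa : ∀ v ∈ p, Ind a (decT T h v) := by
    intro v hv
    apply decT_ind
    intro huv j hj hi
    exact hd j hj v hv hi a (by simp) huv
  have hDb : ∀ v ∈ p, Ind b (decT T h v) := by
    intro v hv
    apply decT_ind
    intro huv j hj hi
    exact hd j hj v hv hi b (by simp) huv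
  set R : (V → Ω) → ℝ := fun z => ∏ j ∈ T0, h j z with hR
  have hRbm : BM R := BM.finprod _ fun j hj => hbm j (hT0s j hj)
  have hRi : ∀ v ∈ p, Ind v R := by
    intro v hv x y
    apply Finset.prod_congr rfl
    intro j hj
    exact (mem_rst.mp hj).2 v hv x y
  have hRC : ∀ x, |R x| ≤ ∏ j ∈ T0, β j := by
    intro x
    simp only [hR]
    rw [Finset.abs_prod]
    exact Finset.prod_le_prod (fun _ _ => abs_nonneg _) fun j hj => hb j (hT0s j hj) x
  have hC0 : 0 ≤ ∏ j ∈ T0, β j := Finset.prod_nonneg fun j hj => (hβ j (hT0s j hj)).le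
  set K1 : (V → Ω) → ℝ :=
    fun x => kern μ (two U) (p.map (fun v => decT T h v x)) (x a) (x b) with hK1
  have hK1bm : BM K1 := (bm_kern μ hU hDbm p).comp
    (g := fun x : V → Ω => (x, (x a, x b))) (by fun_prop)
  have hga : BM (fun x : V → Ω => g (x a)) := hg.comp (measurable_pi_apply a)
  have hw : ∫ x, pathProd U (decT T h) a p b x * (g (x a) * R x) ∂(piM V μ) =
      ∫ x, K1 x * (g (x a) * R x) ∂(piM V μ) := by
    rw [path_elim μ hU hDbm p a b (fun x => g (x a) * R x) (hga.mul hRbm) nd]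
    · intro u hu x y
      have hua : a ≠ u := by
        intro hh; subst hh; exact hap hu
      have e2 : R (Function.update x u y) = R x := hRi u hu x y
      simp only [e2, Function.update_of_ne hua]
    · exact hDin
  set β' : V → ℝ := fun v => ∏ j ∈ dep T h v, β j with hβ'
  have hβ'0 : ∀ v ∈ p, 0 < β' v := by
    intro v hv
    exact Finset.prod_pos fun j hj => hβ j (mem_dep.mp hj).1
  have hpos1 : 0 < (p.map β').prod := by
    apply List.prod_pos
    intro r hr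
    obtain ⟨v, hv, rfl⟩ := List.mem_map.mp hr
    exact hβ'0 v hv
  have hb1 := H612.int_kern_sq_le_r μ hU hκ0 hκ hDbm hk p hp hab hDa hDb β' hβ'0
    (fun v _ x y => abs_decT_le T h β hb v x y)
  have hb2 : ∫ x : V → Ω, g (x a) ^ 2 ∂(piM V μ) = ∫ s, g s ^ 2 ∂μ :=
    integral_eval μ a (hg.pow 2)
  have hck := ck_nonneg μ (U := U) k
  have hg2 : 0 ≤ ∫ s, g s ^ 2 ∂μ := integral_nonneg fun _ => sq_nonneg _
  have key := H612.cs_bounded (piM V μ) hK1bm hga hRbm hRC hC0
    (A := (p.map β').prod * κ ^ r * Real.sqrt (ck μ U k)) (B := Real.sqrt (∫ s, g s ^ 2 ∂μ))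
    (by positivity) (Real.sqrt_nonneg _)
    (by
      refine hb1.trans (le_of_eq ?_)
      rw [mul_pow, mul_pow, Real.sq_sqrt hck, ← pow_mul, mul_comm r 2]
      ring)
    (by rw [hb2, Real.sq_sqrt hg2])
  have e2 : ∀ z, g (z a) * pathProd U (fun _ _ _ => 1) a p b z * ∏ j ∈ T, h j z =
      pathProd U (decT T h) a p b z * (g (z a) * R z) := by
    intro z
    rw [as1 z, pathProd_decT]
    ring
  simp only [e2]
  rw [hw]
  refine key.trans (le_of_eq ?_)
  rw [as2]
  ring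

end Vale.Agent.P050.Dense
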