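import Vale.Agent.P050.R2.H612.JJ1
import Vale.Agent.P050.R2.H612.Pth1r

/-!
# P050, dense targets: one term of the expansion with a marked vertex, long paths
-/

set_option linter.all false

open MeasureTheory Finset

namespace Vale.Agent.P050.Dense

open Vale.Agent.P050

open H612

variable {V : Type*} [Fintype V] [DecidableEq V] {Ω : Type*} [MeasurableSpace Ω]
variable (μ : Measure Ω) [IsProbabilityMeasure μ] {U : Sym2 Ω → ℝ} {κ η : ℝ}

/-- bound of one term, marked vertex, path with `J` double steps, `k ≤ 2 J`, `J < k` -/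
theorem JJ_bound1r {N : V → Finset V} {B γ : Finset V} {D : ℕ} (hN : Bip N B D)
    (hU : Ker μ U κ η) {σ : ℝ} (hn : Num D κ η σ) (hσ : 0 < σ)
    (hγ : γ ⊆ B) {o : V → ℕ}
    {k : ℕ} (hk : 2 ≤ k) (hg : GC N γ k) {g : Ω → ℝ} (hgm : BM g)
    {a₀ : V} {L : List (V × V)} (ha₀ : a₀ ∉ B)
    (hP : Pth N γ a₀ L) {J : ℕ} (hl : L.length = J) (hJ1 : k ≤ 2 * J) (hJ2 : J < k) :
    |∫ z, g (z a₀) * JJ μ U N o true γ a₀ L z ∂(piM V μ)| ≤
      2 ^ J * σ ^ (γ.card - J) * κ ^ (2 * J - k) * Real.sqrt (ck μ U k) *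
        Real.sqrt (∫ s, g s ^ 2 ∂μ) := by
  obtain ⟨x, L, rfl⟩ : ∃ x L', L = x :: L' := by
    cases L with
    | nil => simp only [List.length_nil] at hl; omega
    | cons x L => exact ⟨x, L, rfl⟩
  obtain ⟨b, a⟩ := x
  have hl' : L.length + 1 = J := by simpa using hl
  have hlk : L.length + 1 < k := by omega
  have hnd := hP.nodup_q hN hγ ha₀ hk hg (by simpa using hlk)
  have hnd2 : (a₀ :: (fw L ++ [b]) ++ [a]).Nodup := by
    have e : a₀ :: (fw L ++ [b]) ++ [a] = a₀ :: fw ((b, a) :: L) := by simp [fw]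
    rw [e]; exact hnd
  have hprod : ∏ j ∈ γ, bt σ ((b, a) :: L) j = 2 ^ J * σ ^ (γ.card - J) := by
    rw [bt_prod hP, hl]
  have hlen : (fw L ++ [b]).length + 1 = k + (2 * J - k) := by
    rw [List.length_append, fw_length]
    simp only [List.length_cons, List.length_nil]
    omega
  have key := path_bound1r μ hU.good hU.κ0 hU.l1 hgm γ
    (hf μ U N o true a₀ ((b, a) :: L)) (bt σ ((b, a) :: L))
    (fun j _ => bm_hf μ hU.good j)
    (fun j _ => bt_pos hσ _ j)
    (fun j hj z => abs_hf_le μ hN hU hn hγ hj z)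
    (by omega : 1 ≤ k) (a := a₀) (b := a) (p := fw L ++ [b]) hlen hnd2
    (by
      intro j hj u hu hiu v hv huv
      refine hf_short μ hN hγ hk hg ha₀ hP hlk hj hu ?_ huv hiu
      simpa [fw] using hv)
  rw [hprod] at key
  refine le_trans (le_of_eq ?_) key
  congr 1
  refine integral_congr_ae (Filter.Eventually.of_forall fun z => ?_)
  simp only
  rw [JJ_eq μ hP z, pathProd_fw']
  ring

end Vale.Agent.P050.Dense
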