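import Vale.Agent.P050.R2.H300.Basic
import Vale.Agent.P050.R2.H261.Close
import Vale.Agent.P050.R2.H612.M4

/-!
# P050, dense targets: the vertices of a path and the functions attached to them
-/

set_option linter.all false

open MeasureTheory Finset

namespace Vale.Agent.P050.Dense.H612

open Vale.Agent.P050

section lists

variable {V : Type*} [DecidableEq V]

/-- the vertices of the path after `a₀`, in the order `b₁, a₁, …, b_j, a_j` -/
def fw : List (V × V) → List V
  | [] => []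
  | (b, a) :: L => fw L ++ [b, a]

lemma fw_length (L : List (V × V)) : (fw L).length = 2 * L.length := by
  induction L with
  | nil => rfl
  | cons x L ih =>
    obtain ⟨b, a⟩ := x
    simp only [fw, List.length_append, ih, List.length_cons, List.length_nil]
    ring

lemma mem_Bs_cons {b b' a : V} {L : List (V × V)} :
    b' ∈ Bs ((b, a) :: L) ↔ b' = b ∨ b' ∈ Bs L := by
  simp [Bs]

lemma mem_Bs_append {b' : V} {X Y : List (V × V)} :
    b' ∈ Bs (X ++ Y) ↔ b' ∈ Bs X ∨ b' ∈ Bs Y := by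
  simp [Bs]

lemma fw_append (X Y : List (V × V)) : fw (X ++ Y) = fw Y ++ fw X := by
  induction X with
  | nil => simp [fw]
  | cons x X ih =>
    obtain ⟨b, a⟩ := x
    simp only [List.cons_append, fw, ih, List.append_assoc]

lemma lastA_append (a₀ : V) (X Y : List (V × V)) :
    lastA a₀ (X ++ Y) = lastA (lastA a₀ Y) X := by
  cases X with
  | nil => rfl
  | cons x X => rfl

variable {N : V → Finset V} {B γ : Finset V} {D : ℕ} {a₀ : V}

lemma _root_.Vale.Agent.P050.Dense.Pth.suffix_q {X Y : List (V × V)} (h : Pth N γ a₀ (X ++ Y)) : Pth N γ a₀ Y := by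
  induction X with
  | nil => exact h
  | cons x X ih =>
    obtain ⟨b, a⟩ := x
    exact ih h.1

lemma _root_.Vale.Agent.P050.Dense.Pth.bs_sub_q {L : List (V × V)} (h : Pth N γ a₀ L) : Bs L ⊆ γ := by
  induction L with
  | nil => intro x hx; simp [Bs] at hx
  | cons x L ih =>
    obtain ⟨b, a⟩ := x
    intro c hc
    rcases mem_Bs_cons.mp hc with rfl | hc
    · exact h.2.1
    · exact ih h.1 hc

lemma _root_.Vale.Agent.P050.Dense.Pth.bs_card_q {L : List (V × V)} (h : Pth N γ a₀ L) : (Bs L).card = L.length := by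
  induction L with
  | nil => simp [Bs]
  | cons x L ih =>
    obtain ⟨b, a⟩ := x
    have e : Bs ((b, a) :: L) = insert b (Bs L) := by
      ext c
      rw [mem_Bs_cons, Finset.mem_insert]
    rw [e, Finset.card_insert_of_notMem h.2.2.1, ih h.1, List.length_cons]

lemma _root_.Vale.Agent.P050.Dense.Pth.nbs_q {X Y : List (V × V)} {b a : V} (h : Pth N γ a₀ (X ++ (b, a) :: Y)) :
    b ∉ Bs X ∧ b ∉ Bs Y := by
  refine ⟨?_, h.suffix_q.2.2.1⟩
  intro hb
  induction X with
  | nil => simp [Bs] at hb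
  | cons x X ih =>
    obtain ⟨b', a'⟩ := x
    rcases mem_Bs_cons.mp hb with hbb | hb
    · apply h.2.2.1
      rw [← hbb]
      exact mem_Bs_append.mpr (Or.inr (mem_Bs_cons.mpr (Or.inl rfl)))
    · exact ih h.1 hb

/-- the second vertices are outside `B` -/
lemma _root_.Vale.Agent.P050.Dense.Pth.last_out_q [Fintype V] (hN : Bip N B D) (hγ : γ ⊆ B) (ha₀ : a₀ ∉ B) {L : List (V × V)}
    (h : Pth N γ a₀ L) : lastA a₀ L ∉ B := by
  cases L with
  | nil => exact ha₀
  | cons x L =>
    obtain ⟨b, a⟩ := x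
    exact hN.out b (hγ h.2.1) a h.2.2.2.2.1

/-- the vertices of the path after `a₀` -/
lemma mem_fw {L : List (V × V)} {v : V} (hv : v ∈ fw L) :
    v ∈ Bs L ∨ ∃ X Y, L = X ++ Y ∧ Y ≠ [] ∧ ∀ a₀ : V, v = lastA a₀ Y := by
  induction L with
  | nil => simp [fw] at hv
  | cons x L ih =>
    obtain ⟨b, a⟩ := x
    simp only [fw, List.mem_append, List.mem_cons, List.not_mem_nil, or_false] at hv
    rcases hv with hv | hv | hv
    · rcases ih hv with h | ⟨X, Y, h1, h2, h3⟩
      · exact Or.inl (mem_Bs_cons.mpr (Or.inr h))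
      · exact Or.inr ⟨(b, a) :: X, Y, by rw [h1]; rfl, h2, h3⟩
    · exact Or.inl (mem_Bs_cons.mpr (Or.inl hv))
    · exact Or.inr ⟨[], (b, a) :: L, rfl, by simp, fun _ => hv⟩

lemma mem_cons_fw {L : List (V × V)} {v : V} (hv : v ∈ a₀ :: fw L) :
    v ∈ Bs L ∨ ∃ X Y, L = X ++ Y ∧ v = lastA a₀ Y := by
  rcases List.mem_cons.mp hv with hv | hv
  · exact Or.inr ⟨L, [], by simp, hv⟩
  · rcases mem_fw hv with h | ⟨X, Y, h1, h2, h3⟩
    · exact Or.inl h
    · exact Or.inr ⟨X, Y, h1, h3 a₀⟩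

/-- comparison of suffixes -/
lemma suffix_cmp {L X Y X' Y' : List (V × V)} (h : L = X ++ Y) (h' : L = X' ++ Y')
    (hl : Y.length ≤ Y'.length) : ∃ M, Y' = M ++ Y := by
  have h1 : Y <:+ L := ⟨X, h.symm⟩
  have h2 : Y' <:+ L := ⟨X', h'.symm⟩
  obtain ⟨M, hM⟩ := List.suffix_of_suffix_length_le h1 h2 hl
  exact ⟨M, hM.symm⟩

variable [Fintype V]

/-- the vertices of a short path are distinct -/
lemma _root_.Vale.Agent.P050.Dense.Pth.nodup_q (hN : Bip N B D) (hγ : γ ⊆ B) (ha₀ : a₀ ∉ B) {k : ℕ} (hk : 2 ≤ k)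
    (hg : GC N γ k) {L : List (V × V)} (h : Pth N γ a₀ L) (hl : L.length < k) :
    (a₀ :: fw L).Nodup := by
  induction L with
  | nil => simp [fw]
  | cons x L ih =>
    obtain ⟨b, a⟩ := x
    have hl' : L.length + 1 < k := by simpa using hl
    have ih := ih h.1 (by omega)
    have ha : a ∉ B := hN.out b (hγ h.2.1) a h.2.2.2.2.1
    have hb : b ∈ B := hγ h.2.1
    have hb1 : b ∉ a₀ :: fw L := by
      intro hb1
      rcases mem_cons_fw hb1 with h1 | ⟨X, Y, h1, h2⟩
      · exact h.2.2.1 h1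
      · have hY : Pth N γ a₀ Y := by
          have := h.1
          rw [h1] at this
          exact this.suffix_q
        exact hY.last_out_q hN hγ ha₀ (h2 ▸ hb)
    have ha1 : a ∉ a₀ :: fw L := by
      intro hb1
      rcases mem_cons_fw hb1 with h1 | ⟨X, Y, h1, h2⟩
      · exact ha (hγ (h.1.bs_sub_q h1))
      · have h3 : Pth N γ a₀ (((b, a) :: X) ++ Y) := by
          rw [List.cons_append, ← h1]
          exact h
        have h4 := pth_close hN hγ hk hg h3 (by simp) (by
          show a = lastA a₀ Y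
          exact h2)
        have h5 : X.length ≤ L.length := by rw [h1, List.length_append]; omega
        rw [List.length_cons] at h4
        omega
    have hab : b ≠ a := fun hh => ha (hh ▸ hb)
    have e : a₀ :: fw ((b, a) :: L) = (a₀ :: fw L) ++ [b, a] := by simp [fw]
    rw [e, List.nodup_append]
    refine ⟨ih, by simp [hab], ?_⟩
    intro u hu v hv huv
    rw [huv] at hu
    simp only [List.mem_cons, List.not_mem_nil, or_false] at hv
    rcases hv with rfl | rfl
    · exact hb1 hu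
    · exact ha1 hu

/-- a path vertex adjacent to `b_i` which is not next to it on the path -/
lemma _root_.Vale.Agent.P050.Dense.Pth.nc_q (hN : Bip N B D) (hγ : γ ⊆ B) {k : ℕ} (hk : 2 ≤ k)
    (hg : GC N γ k) {L X Y X' Y' : List (V × V)} {b a : V} (h : Pth N γ a₀ L)
    (hL : L = X ++ (b, a) :: Y) (hL' : L = X' ++ Y') (hc : lastA a₀ Y' ∈ N b) :
    lastA a₀ Y' = lastA a₀ Y ∨ lastA a₀ Y' = a ∨ (k + Y'.length ≤ Y.length + 1) ∨
      (k + Y.length ≤ Y'.length) := by
  have hL2 : L = (X ++ [(b, a)]) ++ Y := by rw [hL]; simp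
  have hbY : Pth N γ a₀ ((b, a) :: Y) := by
    rw [hL] at h
    exact h.suffix_q
  rcases Nat.lt_or_ge Y.length Y'.length with hlt | hle
  · obtain ⟨M, hM⟩ := suffix_cmp hL hL' (by rw [List.length_cons]; omega)
    by_cases hMn : M = []
    · right; left
      rw [hM, hMn]
      rfl
    · have hY' : Pth N γ a₀ (M ++ (b, a) :: Y) := by
        rw [hL', hM] at h
        exact h.suffix_q
      have h1 := pth_close' hN hγ hk hg hY' hMn hbY.2.1 hY'.nbs_q.1 (by rw [← hM]; exact hc)
        hbY.2.2.2.2.1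
      right; right; right
      rw [hM, List.length_append, List.length_cons]
      omega
  · obtain ⟨M, hM⟩ := suffix_cmp hL' hL2 hle
    by_cases hMn : M = []
    · left
      rw [hM, hMn]
      rfl
    · have hY1 : Pth N γ a₀ (M ++ Y') := by
        rw [← hM]
        exact hbY.1
      have hbM : b ∉ Bs M := by
        intro hb
        apply hbY.2.2.1
        rw [hM]
        exact mem_Bs_append.mpr (Or.inl hb)
      have h1 := pth_close' hN hγ hk hg hY1 hMn hbY.2.1 hbM (by rw [← hM]; exact hbY.2.2.2.1) hc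
      right; right; left
      rw [hM, List.length_append]
      omega

/-- two path vertices adjacent to a vertex outside the path -/
lemma _root_.Vale.Agent.P050.Dense.Pth.np_q (hN : Bip N B D) (hγ : γ ⊆ B) {k : ℕ} (hk : 2 ≤ k)
    (hg : GC N γ k) {L X Y X' Y' : List (V × V)} {b : V} (h : Pth N γ a₀ L)
    (hL : L = X ++ Y) (hL' : L = X' ++ Y') (hb : b ∈ γ) (hbL : b ∉ Bs L)
    (hc : lastA a₀ Y ∈ N b) (hc' : lastA a₀ Y' ∈ N b) :
    lastA a₀ Y = lastA a₀ Y' ∨ (k + Y'.length ≤ Y.length + 1) ∨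
      (k + Y.length ≤ Y'.length + 1) := by
  rcases Nat.lt_or_ge Y.length Y'.length with hlt | hle
  · obtain ⟨M, hM⟩ := suffix_cmp hL hL' hlt.le
    have hMn : M ≠ [] := by
      rintro rfl
      rw [hM] at hlt
      simp at hlt
    have h1 : Pth N γ a₀ (M ++ Y) := by
      rw [← hM]
      rw [hL'] at h
      exact h.suffix_q
    have hbM : b ∉ Bs M := by
      intro hb'
      apply hbL
      rw [hL', hM]
      exact mem_Bs_append.mpr (Or.inr (mem_Bs_append.mpr (Or.inl hb')))
    have h2 := pth_close' hN hγ hk hg h1 hMn hb hbM (by rw [← hM]; exact hc') hc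
    right; right
    rw [hM, List.length_append]
    omega
  · obtain ⟨M, hM⟩ := suffix_cmp hL' hL hle
    by_cases hMn : M = []
    · left
      rw [hM, hMn]
      rfl
    · have h1 : Pth N γ a₀ (M ++ Y') := by
        rw [← hM]
        rw [hL] at h
        exact h.suffix_q
      have hbM : b ∉ Bs M := by
        intro hb'
        apply hbL
        rw [hL, hM]
        exact mem_Bs_append.mpr (Or.inr (mem_Bs_append.mpr (Or.inl hb')))
      have h2 := pth_close' hN hγ hk hg h1 hMn hb hbM (by rw [← hM]; exact hc) hc'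
      right; left
      rw [hM, List.length_append]
      omega

end lists

section funcs

variable {V : Type*} [Fintype V] [DecidableEq V] {Ω : Type*} [MeasurableSpace Ω]
variable {U : Sym2 Ω → ℝ} {N : V → Finset V} {B γ : Finset V} {D : ℕ} {o : V → ℕ}

/-- the edges of the path -/
noncomputable def edg (U : Sym2 Ω → ℝ) (a₀ : V) : List (V × V) → (V → Ω) → ℝ
  | [], _ => 1
  | (b, a) :: L, z => U s(z (lastA a₀ L), z b) * U s(z b, z a) * edg U a₀ L z

/-- the decoration of the vertex `b'` of the path -/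
noncomputable def dc (U : Sym2 Ω → ℝ) (N : V → Finset V) (o : V → ℕ) (a₀ : V) :
    List (V × V) → V → (V → Ω) → ℝ
  | [], _, _ => 1
  | (b, a) :: L, b', z => if b' = b then Rdec U N o b (lastA a₀ L) a z else dc U N o a₀ L b' z

lemma pathProd_snoc (p : List V) (a v b : V) (z : V → Ω) :
    pathProd U (fun _ _ _ => 1) a (p ++ [v]) b z =
      pathProd U (fun _ _ _ => 1) a p v z * U s(z v, z b) := by
  induction p generalizing a with
  | nil => simp [pathProd]
  | cons w p ih => simp only [List.cons_append, pathProd, ih]; ring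

/-- the path up to the vertex `b` -/
lemma pathProd_fw (a₀ : V) (L : List (V × V)) (b : V) (z : V → Ω) :
    pathProd U (fun _ _ _ => 1) a₀ (fw L) b z = edg U a₀ L z * U s(z (lastA a₀ L), z b) := by
  induction L generalizing b with
  | nil => simp [fw, edg, lastA, pathProd]
  | cons x L ih =>
    obtain ⟨b', a'⟩ := x
    have e : fw ((b', a') :: L) = (fw L ++ [b']) ++ [a'] := by simp [fw]
    rw [e, pathProd_snoc, pathProd_snoc, ih]
    simp only [edg, lastA]
    ring

/-- the whole path -/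
lemma pathProd_fw' (a₀ : V) (L : List (V × V)) (b a : V) (z : V → Ω) :
    pathProd U (fun _ _ _ => 1) a₀ (fw L ++ [b]) a z = edg U a₀ ((b, a) :: L) z := by
  rw [pathProd_snoc, pathProd_fw]
  simp only [edg]
  ring

lemma core_eq {a₀ : V} {L : List (V × V)} (h : Pth N γ a₀ L) (z : V → Ω) :
    core U N o a₀ L z = edg U a₀ L z * ∏ b' ∈ Bs L, dc U N o a₀ L b' z := by
  induction L with
  | nil => simp [core, edg, Bs]
  | cons x L ih =>
    obtain ⟨b, a⟩ := x
    have e : Bs ((b, a) :: L) = insert b (Bs L) := by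
      ext c
      rw [mem_Bs_cons, Finset.mem_insert]
    rw [e, Finset.prod_insert h.2.2.1]
    have e2 : ∏ b' ∈ Bs L, dc U N o a₀ ((b, a) :: L) b' z = ∏ b' ∈ Bs L, dc U N o a₀ L b' z := by
      apply Finset.prod_congr rfl
      intro b' hb'
      have : b' ≠ b := fun hh => h.2.2.1 (hh ▸ hb')
      simp only [dc, if_neg this]
    rw [e2]
    simp only [core, edg, ih h.1, dc, if_true]
    ring

lemma dc_spec {a₀ : V} {L : List (V × V)} {b' : V} (hb : b' ∈ Bs L) :
    ∃ X a Y, L = X ++ (b', a) :: Y ∧ dc U N o a₀ L b' = Rdec U N o b' (lastA a₀ Y) a := by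
  induction L with
  | nil => simp [Bs] at hb
  | cons x L ih =>
    obtain ⟨b, a⟩ := x
    by_cases hbb : b' = b
    · subst hbb
      refine ⟨[], a, L, rfl, ?_⟩
      ext z
      simp only [dc, if_true]
    · rcases mem_Bs_cons.mp hb with hb | hb
      · exact absurd hb hbb
      · obtain ⟨X, a', Y, h1, h2⟩ := ih hb
        refine ⟨(b, a) :: X, a', Y, by rw [h1]; rfl, ?_⟩
        rw [← h2]
        ext z
        simp only [dc, if_neg hbb]

/-- the functions attached to the vertices of `γ` -/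
noncomputable def hf (μ : Measure Ω) (U : Sym2 Ω → ℝ) (N : V → Finset V) (o : V → ℕ) (fl : Bool)
    (a₀ : V) (L : List (V × V)) (b : V) : (V → Ω) → ℝ :=
  if b ∈ Bs L then dc U N o a₀ L b else Phi μ U N (rem N o fl a₀ b L) b

variable (μ : Measure Ω) [IsProbabilityMeasure μ]

lemma JJ_eq {a₀ : V} {L : List (V × V)} {fl : Bool} (h : Pth N γ a₀ L) (z : V → Ω) :
    JJ μ U N o fl γ a₀ L z = edg U a₀ L z * ∏ b ∈ γ, hf μ U N o fl a₀ L b z := by
  unfold JJ
  rw [core_eq h, ← Finset.prod_sdiff h.bs_sub_q]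
  have e1 : ∏ b ∈ Bs L, hf μ U N o fl a₀ L b z = ∏ b ∈ Bs L, dc U N o a₀ L b z := by
    apply Finset.prod_congr rfl
    intro b hb
    simp only [hf, if_pos hb]
  have e2 : ∏ b ∈ γ \ Bs L, hf μ U N o fl a₀ L b z =
      ∏ b ∈ γ \ Bs L, Phi μ U N (rem N o fl a₀ b L) b z := by
    apply Finset.prod_congr rfl
    intro b hb
    simp only [hf, if_neg (Finset.mem_sdiff.mp hb).2]
  rw [e1, e2]
  ring

lemma bm_hf {a₀ : V} {L : List (V × V)} {fl : Bool} (hU : Good U 1) (b : V) :
    BM (hf μ U N o fl a₀ L b) := by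
  unfold hf
  by_cases hb : b ∈ Bs L
  · rw [if_pos hb]
    obtain ⟨X, a, Y, h1, h2⟩ := dc_spec (U := U) (N := N) (o := o) (a₀ := a₀) hb
    rw [h2]
    exact bm_Rdec hU N o b _ a
  · rw [if_neg hb]
    exact bm_Phi μ hU N _ b

/-- the bounds -/
noncomputable def bt (σ : ℝ) (L : List (V × V)) (b : V) : ℝ := if b ∈ Bs L then 2 else σ

lemma bt_pos {σ : ℝ} (hσ : 0 < σ) (L : List (V × V)) (b : V) : 0 < bt σ L b := by
  unfold bt
  split_ifs
  · norm_num
  · exact hσ

lemma bt_prod {σ : ℝ} {a₀ : V} {L : List (V × V)} (h : Pth N γ a₀ L) :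
    ∏ b ∈ γ, bt σ L b = 2 ^ L.length * σ ^ (γ.card - L.length) := by
  rw [← Finset.prod_sdiff h.bs_sub_q]
  have e1 : ∏ b ∈ Bs L, bt σ L b = 2 ^ L.length := by
    rw [← h.bs_card_q, ← Finset.prod_const]
    apply Finset.prod_congr rfl
    intro b hb
    simp only [bt, if_pos hb]
  have e2 : ∏ b ∈ γ \ Bs L, bt σ L b = σ ^ (γ.card - L.length) := by
    rw [← h.bs_card_q, ← Finset.card_sdiff_of_subset h.bs_sub_q, ← Finset.prod_const]
    apply Finset.prod_congr rfl
    intro b hb
    simp only [bt, if_neg (Finset.mem_sdiff.mp hb).2]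
  rw [e1, e2, mul_comm]

lemma abs_hf_le {κ η : ℝ} (hN : Bip N B D) (hU : Ker μ U κ η) {σ : ℝ} (hn : Num D κ η σ)
    (hγ : γ ⊆ B) {a₀ : V} {L : List (V × V)} {fl : Bool} {b : V} (hb : b ∈ γ) (z : V → Ω) :
    |hf μ U N o fl a₀ L b z| ≤ bt σ L b := by
  unfold hf bt
  by_cases hbL : b ∈ Bs L
  · rw [if_pos hbL, if_pos hbL]
    obtain ⟨X, a, Y, h1, h2⟩ := dc_spec (U := U) (N := N) (o := o) (a₀ := a₀) hbL
    rw [h2]
    exact abs_Rdec_le hU hn o (hN.dB b (hγ hb)) _ a z
  · rw [if_neg hbL, if_neg hbL]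
    exact abs_Phi_le μ hU hn hN (hγ hb) _ z

/-- on which path vertices does `hf` depend? -/
lemma hf_dep {fl : Bool} {a₀ : V} {L : List (V × V)} {b u : V}
    (hu : ¬ Ind u (hf μ U N o fl a₀ L b)) :
    (b ∈ Bs L ∧ ∃ X a Y, L = X ++ (b, a) :: Y ∧
      (u = b ∨ (u ∈ N b ∧ u ≠ lastA a₀ Y ∧ u ≠ a))) ∨
    (b ∉ Bs L ∧ u ∈ N b) := by
  by_cases hb : b ∈ Bs L
  · left
    refine ⟨hb, ?_⟩
    obtain ⟨X, a, Y, h1, h2⟩ := dc_spec (U := U) (N := N) (o := o) (a₀ := a₀) hb
    refine ⟨X, a, Y, h1, ?_⟩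
    by_contra hcon
    rw [not_or] at hcon
    apply hu
    unfold hf
    rw [if_pos hb, h2]
    apply Rdec_ind N o hcon.1
    rintro ⟨h3, h4, h5⟩
    exact hcon.2 ⟨h3, h4, fun h6 => by rw [h6] at h5; exact lt_irrefl _ h5⟩
  · right
    refine ⟨hb, ?_⟩
    by_contra hcon
    apply hu
    unfold hf
    rw [if_neg hb]
    apply Phi_ind
    intro h3
    exact hcon (Finset.mem_sdiff.mp h3).1

end funcs

end Vale.Agent.P050.Dense.H612
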